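import Vale.Agent.P092.H85.CD

/-!
P092 (helper541), team D, block D0-NW, escape: the cocycle of a lattice leaves every finite set as
the group element tends to infinity; coordinate masses of the induced representation tend to zero.
-/

set_option linter.all false

open Set Filter Topology MeasureTheory
open scoped ENNReal

namespace Vale.Agent.P092.H541

open Vale.Agent.P092.H790 Vale.Agent.P092.H85

section coc

variable {E : Type} [Group E] [TopologicalSpace E] [IsTopologicalGroup E] [LocallyCompactSpace E]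
  [SecondCountableTopology E] [T2Space E] [MeasurableSpace E] [BorelSpace E]
  (Λ : Subgroup E) [DiscreteTopology Λ] [MeasurableSpace (E ⧸ Λ)] [BorelSpace (E ⧸ Λ)]

/-- **Mixing form**: for every finite `F`, the set where `c(w, x) ∈ F` has small measure for `w` off a
compact set. -/
theorem coc_esc_real (ν : Measure (E ⧸ Λ)) [IsProbabilityMeasure ν]
    (hν : ∀ g : E, ν.map (fun x => g • x) = ν) (F : Finset Λ) {ε : ℝ} (hε : 0 < ε) :
    ∀ᶠ w in cocompact E, ν.real {x | coc Λ w x ∈ F} ≤ ε := by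
  classical
  obtain ⟨K, hK, hKm, hKν⟩ := exists_compact_large Λ ν (half_pos hε)
  obtain ⟨C, hC, hσC⟩ := sec_bdd Λ K hK
  have hQ : IsCompact ((fun p : E × E × E => p.1 * p.2.1 * p.2.2⁻¹) ''
      (C ×ˢ (((↑) : Λ → E) '' (F : Set Λ)) ×ˢ C)) :=
    (hC.prod ((F.finite_toSet.image _).isCompact.prod hC)).image (by fun_prop)
  filter_upwards [hQ.compl_mem_cocompact] with w hw
  have hsub : {x | coc Λ w x ∈ F} ⊆ Kᶜ ∪ (fun x : E ⧸ Λ => w • x) ⁻¹' Kᶜ := by
    intro x hx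
    by_contra hcon
    simp only [mem_union, mem_compl_iff, mem_preimage, not_or, not_not] at hcon
    refine hw ⟨(sec Λ (w • x), (coc Λ w x : E), sec Λ x),
      ⟨hσC _ hcon.2, ⟨_, hx, rfl⟩, hσC _ hcon.1⟩, ?_⟩
    change sec Λ (w • x) * (coc Λ w x : E) * (sec Λ x)⁻¹ = w
    rw [sec_mul_coc, mul_inv_cancel_right]
  have hpre : ν.real ((fun x : E ⧸ Λ => w • x) ⁻¹' Kᶜ) = ν.real Kᶜ := by
    rw [← map_measureReal_apply (smul_meas Λ w) hKm.compl, hν]
  calc ν.real {x | coc Λ w x ∈ F} ≤ ν.real (Kᶜ ∪ (fun x : E ⧸ Λ => w • x) ⁻¹' Kᶜ) :=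
      measureReal_mono hsub
    _ ≤ ν.real Kᶜ + ν.real ((fun x : E ⧸ Λ => w • x) ⁻¹' Kᶜ) := measureReal_union_le _ _
    _ ≤ ε := by rw [hpre]; linarith

theorem coc_esc (ν : Measure (E ⧸ Λ)) [IsProbabilityMeasure ν]
    (hν : ∀ g : E, ν.map (fun x => g • x) = ν) (F : Finset Λ) :
    Tendsto (fun w => ν {x | coc Λ w x ∈ F}) (cocompact E) (𝓝 0) := by
  rw [ENNReal.tendsto_nhds_zero]
  intro ε hε
  rcases eq_or_ne ε ∞ with rfl | hε'
  · exact Eventually.of_forall fun _ => le_top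
  filter_upwards [coc_esc_real Λ ν hν F (ENNReal.toReal_pos hε.ne' hε')] with w hw
  rw [Measure.real, ENNReal.toReal_le_toReal (measure_ne_top _ _) hε'] at hw
  exact hw

end coc

section ri

variable {D Λ : Type} [Group D] [Group Λ] [Countable Λ] (d : CData D Λ) {K : Type}
  [NormedAddCommGroup K] [InnerProductSpace ℂ K] [CompleteSpace K] {R : Λ → K →L[ℂ] K}
  (hb : ∀ v, ‖R v‖ ≤ 1)

include hb in
/-- Norm of `A (R~ w ξ)`, pulled back by `w`. -/
theorem lnorm_ri (A : K →L[ℂ] K) (w : D) (ξ : Lp K 2 d.μ) :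
    ‖(A.compLpL 2 d.μ) (Ri d R w ξ)‖ₑ ^ 2 = ∫⁻ x, ‖A (R (d.c w x) (ξ x))‖ₑ ^ 2 ∂d.μ := by
  have h1 : ‖(A.compLpL 2 d.μ) (Ri d R w ξ)‖ₑ ^ 2 =
      ∫⁻ x, ‖((A.compLpL 2 d.μ) (Ri d R w ξ)) x‖ₑ ^ 2 ∂d.μ := by
    rw [Lp.enorm_def, eLpNorm_eq_lintegral_rpow_enorm_toReal (by norm_num) (by norm_num)]
    rw [← ENNReal.rpow_natCast, ← ENNReal.rpow_mul]
    simp
  rw [h1]
  have h2 : ∀ᵐ x ∂d.μ, ‖((A.compLpL 2 d.μ) (Ri d R w ξ)) x‖ₑ ^ 2 =
      ‖A (R (d.c w (d.act w⁻¹ x)) (ξ (d.act w⁻¹ x)))‖ₑ ^ 2 := by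
    filter_upwards [fld_comp (μ := d.μ) A (Ri d R w ξ), ri_ae d hb w ξ] with x h3 h4
    rw [h3, h4]
  rw [lintegral_congr_ae h2]
  have h3 : AEStronglyMeasurable (fun x => A (R (d.c w x) (ξ x))) d.μ := by
    refine A.continuous.comp_aestronglyMeasurable ?_
    exact aesm_countable (F := fun v x => R v (ξ x)) (k := fun x => d.c w x)
      (fun v => d.c_meas w v)
      (fun v => (R v).continuous.comp_aestronglyMeasurable (Lp.aestronglyMeasurable ξ))
  have h4 : AEMeasurable (fun x => ‖A (R (d.c w x) (ξ x))‖ₑ ^ 2) (d.μ.map (d.act w⁻¹)) := by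
    rw [(d.mp w⁻¹).map_eq]
    exact h3.enorm.pow_const 2
  rw [← lintegral_map' h4 (d.mp w⁻¹).measurable.aemeasurable, (d.mp w⁻¹).map_eq]

include hb in
/-- **Escape for the induced representation**: if the coefficients of `R v` under `A` vanish at
infinity, and the cocycle leaves every finite set along `l`, then so do those of `R~ w`. -/
theorem ri_esc {A : K →L[ℂ] K} (hA : ∀ η, Tendsto (fun v => ‖A (R v η)‖) cofinite (𝓝 0))
    {l : Filter D} (hl : ∀ F : Finset Λ, Tendsto (fun w => d.μ {x | d.c w x ∈ F}) l (𝓝 0))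
    (ξ : Lp K 2 d.μ) : Tendsto (fun w => ‖(A.compLpL 2 d.μ) (Ri d R w ξ)‖) l (𝓝 0) := by
  classical
  -- an exhausting sequence of finite sets
  obtain ⟨F, hFm, hFu⟩ : ∃ F : ℕ → Finset Λ, Monotone F ∧ ∀ v, ∃ n, v ∈ F n := by
    obtain ⟨e, he⟩ := Countable.exists_injective_nat Λ
    have hfin : ∀ n, {v : Λ | e v ≤ n}.Finite := fun n =>
      (Set.finite_Iic n).preimage he.injOn
    refine ⟨fun n => (hfin n).toFinset, fun a b hab v hv => ?_, fun v => ⟨e v, ?_⟩⟩
    · rw [Set.Finite.mem_toFinset] at hv ⊢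
      exact le_trans hv hab
    · rw [Set.Finite.mem_toFinset]
      exact (le_refl (e v) : e v ≤ e v)
  obtain ⟨bd, hbd⟩ : ∃ bd : d.X → ℝ≥0∞, bd = fun x => (‖A‖ₑ * ‖ξ x‖ₑ) ^ 2 := ⟨_, rfl⟩
  have hbdm : ∀ v x, ‖A (R v (ξ x))‖ₑ ^ 2 ≤ bd x := by
    intro v x
    rw [hbd]
    refine pow_le_pow_left' ?_ 2
    refine (A.le_opENorm _).trans ?_
    gcongr
    rw [enorm_le_iff_norm_le]
    refine ((R v).le_opNorm _).trans ?_
    exact mul_le_of_le_one_left (norm_nonneg _) (hb v)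
  have hξi : ∫⁻ x, ‖ξ x‖ₑ ^ 2 ∂d.μ ≠ ∞ := by
    have h1 := lnorm_ri (R := R) d hb (1 : K →L[ℂ] K) 1 ξ
    have h2 : ‖ξ‖ₑ ^ 2 = ∫⁻ x, ‖ξ x‖ₑ ^ 2 ∂d.μ := by
      rw [Lp.enorm_def, eLpNorm_eq_lintegral_rpow_enorm_toReal (by norm_num) (by norm_num)]
      rw [← ENNReal.rpow_natCast, ← ENNReal.rpow_mul]
      simp
    rw [← h2]
    exact ENNReal.pow_ne_top enorm_ne_top
  have hbdi : ∫⁻ x, bd x ∂d.μ ≠ ∞ := by
    rw [hbd]
    simp only [mul_pow]
    rw [lintegral_const_mul' _ _ (ENNReal.pow_ne_top enorm_ne_top)]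
    exact ENNReal.mul_ne_top (ENNReal.pow_ne_top enorm_ne_top) hξi
  obtain ⟨s, hs⟩ : ∃ s : ℕ → d.X → ℝ≥0∞, s = fun n x =>
      ⨆ v : Λ, if v ∈ F n then 0 else ‖A (R v (ξ x))‖ₑ ^ 2 := ⟨_, rfl⟩
  have hsm : ∀ n, AEMeasurable (s n) d.μ := by
    intro n
    rw [hs]
    refine AEMeasurable.iSup fun v => ?_
    split_ifs
    · exact aemeasurable_const
    · exact ((A.continuous.comp_aestronglyMeasurable
        ((R v).continuous.comp_aestronglyMeasurable (Lp.aestronglyMeasurable ξ))).enorm.pow_const 2)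
  have hsb : ∀ n x, s n x ≤ bd x := by
    intro n x
    rw [hs]
    refine iSup_le fun v => ?_
    split_ifs
    · exact zero_le
    · exact hbdm v x
  have hs0 : ∀ x, Tendsto (fun n => s n x) atTop (𝓝 0) := by
    intro x
    rw [ENNReal.tendsto_nhds_zero]
    intro ε hε
    have h1 : Tendsto (fun v => ‖A (R v (ξ x))‖ₑ ^ 2) cofinite (𝓝 0) := by
      have h2 := (hA (ξ x))
      have h3 : Tendsto (fun v => ‖A (R v (ξ x))‖ₑ) cofinite (𝓝 0) := by
        have h4 := ENNReal.tendsto_ofReal h2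
        simpa [ofReal_norm_eq_enorm] using h4
      have h5 := (ENNReal.continuous_pow 2).tendsto (0 : ℝ≥0∞)
      rw [zero_pow two_ne_zero] at h5
      exact h5.comp h3
    have h2 := (ENNReal.tendsto_nhds_zero.mp h1) ε hε
    rw [eventually_cofinite] at h2
    obtain ⟨N, hN⟩ : ∃ N, ∀ v ∈ h2.toFinset, v ∈ F N := by
      choose n hn using hFu
      refine ⟨h2.toFinset.sup n, fun v hv => hFm (Finset.le_sup hv) (hn v)⟩
    filter_upwards [eventually_ge_atTop N] with n hn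
    rw [hs]
    refine iSup_le fun v => ?_
    split_ifs with hv
    · exact zero_le
    · by_contra hc
      exact hv (hFm hn (hN v (by rw [Set.Finite.mem_toFinset]; exact hc)))
  have hlim : Tendsto (fun n => ∫⁻ x, s n x ∂d.μ) atTop (𝓝 0) := by
    have h1 := tendsto_lintegral_of_dominated_convergence' (μ := d.μ) (F := s) (f := fun _ => 0) bd
      hsm (fun n => Eventually.of_forall (hsb n)) hbdi (Eventually.of_forall hs0)
    simpa using h1
  have hmain : Tendsto (fun w => ‖(A.compLpL 2 d.μ) (Ri d R w ξ)‖ₑ ^ 2) l (𝓝 0) := by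
    rw [ENNReal.tendsto_nhds_zero]
    intro ε hε
    obtain ⟨n, hn⟩ := ((ENNReal.tendsto_nhds_zero.mp hlim) (ε / 2)
      (ENNReal.half_pos hε.ne')).exists
    have h1 : Tendsto (fun w => ∫⁻ x in {x | d.c w x ∈ F n}, bd x ∂d.μ) l (𝓝 0) :=
      tendsto_setLIntegral_zero hbdi (hl (F n))
    filter_upwards [(ENNReal.tendsto_nhds_zero.mp h1) (ε / 2) (ENNReal.half_pos hε.ne')] with w hw
    rw [lnorm_ri d hb]
    have hmeas : MeasurableSet {x | d.c w x ∈ F n} := by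
      have e : {x | d.c w x ∈ F n} = ⋃ v ∈ F n, {x | d.c w x = v} := by
        ext x
        simp
      rw [e]
      exact Finset.measurableSet_biUnion _ fun v _ => d.c_meas w v
    calc ∫⁻ x, ‖A (R (d.c w x) (ξ x))‖ₑ ^ 2 ∂d.μ
        ≤ ∫⁻ x, (s n x + ({x | d.c w x ∈ F n}.indicator bd x)) ∂d.μ := by
          refine lintegral_mono fun x => ?_
          by_cases hx : d.c w x ∈ F n
          · rw [Set.indicator_of_mem (by exact hx)]
            exact (hbdm _ _).trans le_add_self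
          · refine le_trans ?_ le_self_add
            rw [hs]
            refine le_iSup_of_le (d.c w x) ?_
            rw [if_neg hx]
      _ = ∫⁻ x, s n x ∂d.μ + ∫⁻ x in {x | d.c w x ∈ F n}, bd x ∂d.μ := by
          rw [lintegral_add_left' (hsm n), lintegral_indicator hmeas]
      _ ≤ ε / 2 + ε / 2 := add_le_add hn hw
      _ = ε := ENNReal.add_halves ε
  have h2 : Tendsto (fun w => ‖(A.compLpL 2 d.μ) (Ri d R w ξ)‖ ^ 2) l (𝓝 0) := by
    have h3 := (ENNReal.tendsto_toReal ENNReal.zero_ne_top).comp hmain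
    simpa [Function.comp_def] using h3
  have h4 := (Real.continuous_sqrt.tendsto 0).comp h2
  rw [Real.sqrt_zero] at h4
  refine h4.congr fun w => ?_
  exact Real.sqrt_sq (norm_nonneg _)

end ri

end Vale.Agent.P092.H541
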