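import Vale.Agent.P092.H761.CoefInd
import Vale.Agent.P092.H538.Fst
import Vale.Agent.P092.H859.CLB
import Vale.Agent.P092.H541.Esc

/-!
P092 (helper541), team D, block D0-NW, escape: the first leg of a representation in (an
amplification of) `L(Γ × Q)` with a covariant family that commutes with `L(Q)` leaves every finite
set, on the fibre (`arep_esc`) and for the induced representation (`esc_fst`).
-/

set_option linter.all false

open scoped InnerProductSpace ComplexOrder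
open Filter Topology ContinuousLinearMap MeasureTheory

namespace Vale.Agent.P092.H541

open Vale.Agent.P092.H160 Vale.Agent.P092.H432
open Vale.Agent.P092.H553 (mo mo_apply norm_mo_sq norm_mo_le norm_mo_le_mo mo_sum mo_smul)
open Vale.Agent.P092.H538 (ind ind_pos ind_neg ind_nonneg abs_ind_le)
open Vale.Agent.P092.H761 (CovFam)
open Vale.Agent.P092.H790 (CData Ri)
open Vale.Agent.P092.H85 (coc cdat)

/-! ### Elementary -/

/-- Mass of a function supported on the range of an injection. -/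
theorem norm_mo_fib {X Y : Type} {j : Y → X} (hj : Function.Injective j) {F : X → ℝ}
    (hF : ∀ x, |F x| ≤ 1) (hF0 : ∀ x, F x ≠ 0 → x ∈ Set.range j) (ξ : Ell2 X) {C : ℝ} (hC : 0 ≤ C)
    (h : ∀ s : Finset Y, ∑ y ∈ s, ‖ξ (j y)‖ ^ 2 ≤ C ^ 2) : ‖mo F ξ‖ ≤ C := by
  refine abs_le_of_sq_le_sq' ?_ hC |>.2
  rw [norm_mo_sq hF, ← hj.tsum_eq]
  · have h0 : ∀ y, F (j y) ^ 2 * ‖ξ (j y)‖ ^ 2 ≤ ‖ξ (j y)‖ ^ 2 := fun y => by
      have h1 : F (j y) ^ 2 ≤ 1 := by
        have := hF (j y)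
        rw [← sq_abs]
        exact pow_le_one₀ (abs_nonneg _) this
      exact mul_le_of_le_one_left (by positivity) h1
    have hs : Summable fun y => F (j y) ^ 2 * ‖ξ (j y)‖ ^ 2 :=
      Summable.of_nonneg_of_le (fun y => by positivity) h0
        ((summable_sq ξ).comp_injective hj)
    refine hs.tsum_le_of_sum_le fun s => (Finset.sum_le_sum fun y _ => h0 y).trans (h s)
  · intro x hx
    refine hF0 x fun h1 => hx ?_
    change F x ^ 2 * ‖ξ x‖ ^ 2 = 0
    rw [h1]; ring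

/-- Bessel's inequality along an injection. -/
theorem bessel {X Y : Type} {j : Y → X} (hj : Function.Injective j) (f : Ell2 X) (s : Finset Y) :
    ∑ y ∈ s, ‖f (j y)‖ ^ 2 ≤ ‖f‖ ^ 2 := by
  classical
  have h1 := Finset.sum_map s ⟨j, hj⟩ (fun x => ‖f x‖ ^ 2)
  rw [Function.Embedding.coeFn_mk] at h1
  rw [← h1]
  exact sum_sq_le f _

section arep

variable {Γ Q Λ ι : Type} [Group Γ] [Group Q] [Group Λ]

/-- The mass of one fibre of the first leg. -/
theorem fib_bound {T S : Ell2 ((Γ × Q) × ι) →L[ℂ] Ell2 ((Γ × Q) × ι)} (hT : RA T) (hT1 : ‖T‖ ≤ 1)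
    (hS : ∀ q : Q, S * lx ((1 : Γ), q) = lx ((1 : Γ), q) * S) (hSa : adjoint S = S) (g : Γ) (i : ι)
    (x₀ : (Γ × Q) × ι) :
    ‖mo (ind fun x : (Γ × Q) × ι => x.1.1 = g ∧ x.2 = i) (S (T (dl x₀)))‖ ≤
      ‖S (dl ((g, 1), i))‖ := by
  have hj : Function.Injective (fun q : Q => (((g, q), i) : (Γ × Q) × ι)) := fun q q' h => by
    simpa using h
  have hj' : Function.Injective (fun q : Q => (((x₀.1.1, q⁻¹ * x₀.1.2), x₀.2) : (Γ × Q) × ι)) :=
    fun q q' h => by simpa using h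
  refine norm_mo_fib hj (abs_ind_le _) (fun x hx => ?_) _ (norm_nonneg _) fun s => ?_
  · by_cases h : x.1.1 = g ∧ x.2 = i
    · exact ⟨x.1.2, by rw [← h.1, ← h.2]⟩
    · exact absurd (ind_neg h) hx
  · have h1 : ∀ q : Q, (S (T (dl x₀))) ((g, q), i) = (starRingEnd ℂ)
        ((adjoint T (S (dl ((g, 1), i)))) ((x₀.1.1, q⁻¹ * x₀.1.2), x₀.2)) := by
      intro q
      have e1 : (dl ((g, q), i) : Ell2 ((Γ × Q) × ι)) = lx ((1 : Γ), q) (dl ((g, 1), i)) := by
        rw [lx_dl, Prod.mk_mul_mk, one_mul, mul_one]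
      have e2 : (dl ((x₀.1.1, q⁻¹ * x₀.1.2), x₀.2) : Ell2 ((Γ × Q) × ι)) =
          lx ((1 : Γ), q⁻¹) (dl x₀) := by
        obtain ⟨⟨a, b⟩, c⟩ := x₀
        rw [lx_dl, Prod.mk_mul_mk, one_mul]
      have e3 := congrArg (fun A => A (T (dl x₀))) (hS q⁻¹)
      change S (lx ((1 : Γ), q⁻¹) (T (dl x₀))) = lx ((1 : Γ), q⁻¹) (S (T (dl x₀))) at e3
      rw [← inner_dl, e1, inner_lx_left, Prod.inv_mk, inv_one, ← e3, ← hT.app, ← e2,
        ← adjoint_inner_left, hSa, ← adjoint_inner_left, inner_dl_right]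
    calc ∑ q ∈ s, ‖(S (T (dl x₀))) ((g, q), i)‖ ^ 2
        = ∑ q ∈ s, ‖(adjoint T (S (dl ((g, 1), i)))) ((x₀.1.1, q⁻¹ * x₀.1.2), x₀.2)‖ ^ 2 := by
          refine Finset.sum_congr rfl fun q _ => ?_
          rw [h1, RCLike.norm_conj]
      _ ≤ ‖adjoint T (S (dl ((g, 1), i)))‖ ^ 2 := bessel hj' _ s
      _ ≤ ‖S (dl ((g, 1), i))‖ ^ 2 := by
          gcongr
          refine ((adjoint T).le_opNorm _).trans ?_
          rw [LinearIsometryEquiv.norm_map]
          exact mul_le_of_le_one_left (norm_nonneg _) hT1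

variable {R : Λ → (Ell2 ((Γ × Q) × ι) →L[ℂ] Ell2 ((Γ × Q) × ι))}
  {E0 : Set Λ → (Ell2 ((Γ × Q) × ι) →L[ℂ] Ell2 ((Γ × Q) × ι))}

theorem cov_tend {K : Type} [NormedAddCommGroup K] [InnerProductSpace ℂ K]
    [CompleteSpace K] {R : Λ → (K →L[ℂ] K)} {E0 : Set Λ → (K →L[ℂ] K)} (hE : CovFam R E0)
    (y : K) : Tendsto (fun w => ‖E0 {w} y‖) cofinite (𝓝 0) := by
  have h1 : HasSum (fun w => E0 {w} y) (R 1 y) := by
    have h2 := hE.lim Set.univ y
    rw [hE.univ] at h2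
    refine h2.congr fun s => ?_
    rw [hE.finset, sum_apply]
    exact Finset.sum_congr rfl fun w _ => by rw [if_pos (Set.mem_univ w)]
  have h3 := h1.summable.tendsto_cofinite_zero
  exact tendsto_zero_iff_norm_tendsto_zero.mp h3

open Classical in
theorem cov_shift {K : Type} [NormedAddCommGroup K] [InnerProductSpace ℂ K]
    [CompleteSpace K] {R : Λ → (K →L[ℂ] K)} {E0 : Set Λ → (K →L[ℂ] K)} (hE : CovFam R E0)
    (F : Finset Λ) (v : Λ) (y : K) :
    E0 {w | w * v ∈ (F : Set Λ)} y = ∑ f ∈ F, E0 {f * v⁻¹} y := by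
  have h1 : {w | w * v ∈ (F : Set Λ)} =
      Set.univ ∩ ((F.map ⟨fun f => f * v⁻¹, mul_left_injective _⟩ : Finset Λ) : Set Λ) := by
    ext w
    simp only [Set.mem_setOf_eq, Finset.mem_coe, Set.univ_inter, Finset.mem_map,
      Function.Embedding.coeFn_mk]
    constructor
    · intro h
      exact ⟨w * v, h, by group⟩
    · rintro ⟨f, hf, rfl⟩
      simpa using hf
  rw [h1, hE.finset, sum_apply, Finset.sum_map]
  exact Finset.sum_congr rfl fun w _ => by
    rw [if_pos (Set.mem_univ _)]; rfl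

theorem cov_shift_tend {K : Type} [NormedAddCommGroup K] [InnerProductSpace ℂ K]
    [CompleteSpace K] {R : Λ → (K →L[ℂ] K)} {E0 : Set Λ → (K →L[ℂ] K)} (hE : CovFam R E0)
    (F : Finset Λ) (y : K) :
    Tendsto (fun v => ‖E0 {w | w * v ∈ (F : Set Λ)} y‖) cofinite (𝓝 0) := by
  have h1 : Tendsto (fun v : Λ => ∑ f ∈ F, ‖E0 {f * v⁻¹} y‖) cofinite (𝓝 0) := by
    rw [← Finset.sum_const_zero (s := F) (ι := Λ)]
    refine tendsto_finset_sum _ fun f _ => ?_
    have hinj : Function.Injective (fun v : Λ => f * v⁻¹) := fun v v' h => by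
      simpa using h
    exact (cov_tend hE y).comp hinj.tendsto_cofinite
  refine squeeze_zero (fun v => norm_nonneg _) (fun v => ?_) h1
  rw [cov_shift hE]
  exact norm_sum_le _ _

/-- The vectors on which a bounded family of operators tends to zero form a closed subspace. -/
theorem tend_dl {X ι F : Type} [NormedAddCommGroup F] [InnerProductSpace ℂ F] {l : Filter ι}
    {f : ι → (Ell2 X →L[ℂ] F)} (hC : ∀ i, ‖f i‖ ≤ 1)
    (h : ∀ x, Tendsto (fun i => ‖f i (dl x)‖) l (𝓝 0)) (ξ : Ell2 X) :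
    Tendsto (fun i => ‖f i ξ‖) l (𝓝 0) := by
  have h1 : ∀ y ∈ Submodule.span ℂ (Set.range (dl : X → Ell2 X)),
      Tendsto (fun i => ‖f i y‖) l (𝓝 0) := by
    intro y hy
    induction hy using Submodule.span_induction with
    | mem x hx => obtain ⟨x, rfl⟩ := hx; exact h x
    | zero => simp only [map_zero, norm_zero]; exact tendsto_const_nhds
    | add x y _ _ hx hy =>
      have := hx.add hy
      rw [add_zero] at this
      refine squeeze_zero (fun i => norm_nonneg _) (fun i => ?_) this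
      rw [map_add]
      exact norm_add_le _ _
    | smul c x _ hx =>
      have := hx.const_mul ‖c‖
      rw [mul_zero] at this
      refine this.congr fun i => ?_
      rw [map_smul, norm_smul]
  have h2 : (Submodule.span ℂ (Set.range (dl : X → Ell2 X))).topologicalClosure = ⊤ := by
    rw [Submodule.topologicalClosure_eq_top_iff, Submodule.eq_bot_iff]
    intro v hv
    refine eq_zero_of_inner_dl fun x => ?_
    rw [← inner_dl]
    exact (Submodule.mem_orthogonal _ _).mp hv _ (Submodule.subset_span ⟨x, rfl⟩)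
  have h3 : ξ ∈ closure ((Submodule.span ℂ (Set.range (dl : X → Ell2 X)) :
      Submodule ℂ (Ell2 X)) : Set (Ell2 X)) := by
    rw [← Submodule.topologicalClosure_coe, h2]; trivial
  rw [Metric.tendsto_nhds]
  intro ε hε
  obtain ⟨y, hy, hd⟩ := Metric.mem_closure_iff.mp h3 (ε / 2) (half_pos hε)
  filter_upwards [(Metric.tendsto_nhds.mp (h1 y hy)) (ε / 2) (half_pos hε)] with i hi
  rw [dist_zero_right, norm_norm] at hi ⊢
  have h4 : f i ξ = f i (ξ - y) + f i y := by rw [← map_add, sub_add_cancel]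
  rw [h4]
  have h5 : ‖f i (ξ - y)‖ ≤ ‖ξ - y‖ :=
    ((f i).le_opNorm _).trans (mul_le_of_le_one_left (norm_nonneg _) (hC i))
  rw [dist_eq_norm] at hd
  exact (norm_add_le _ _).trans_lt (by linarith)

variable [Fintype ι] {t : ℝ}

/-- One fibre of the first leg. -/
theorem arep_esc_fib (hR : ARep t R) (hE : CovFam R E0)
    (hq : ∀ A (q : Q), E0 A * lx ((1 : Γ), q) = lx ((1 : Γ), q) * E0 A) (g : Γ) (i : ι)
    (η : Ell2 ((Γ × Q) × ι)) :
    Tendsto (fun v => ‖mo (ind fun x : (Γ × Q) × ι => x.1.1 = g ∧ x.2 = i) (R v η)‖) cofinite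
      (𝓝 0) := by
  obtain ⟨M, hM⟩ : ∃ M : Ell2 ((Γ × Q) × ι) →L[ℂ] Ell2 ((Γ × Q) × ι),
      M = mo (ind fun x : (Γ × Q) × ι => x.1.1 = g ∧ x.2 = i) := ⟨_, rfl⟩
  have hM1 : ∀ ξ, ‖M ξ‖ ≤ ‖ξ‖ := fun ξ => by
    rw [hM]
    have := norm_mo_le (abs_ind_le fun x : (Γ × Q) × ι => x.1.1 = g ∧ x.2 = i) ξ
    rwa [one_mul] at this
  rw [← hM]
  refine tend_dl (f := fun v => M * R v) (fun v => ?_) (fun x₀ => ?_) η
  · refine ContinuousLinearMap.opNorm_le_bound _ zero_le_one fun ξ => ?_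
    rw [one_mul]
    exact (hM1 _).trans (hR.norm_le v ξ)
  · rw [Metric.tendsto_nhds]
    intro ε hε
    -- cut the initial vector
    have h1 := hE.lim Set.univ (dl x₀)
    rw [hE.univ, Metric.tendsto_nhds] at h1
    obtain ⟨F, hF⟩ := (h1 (ε / 2) (half_pos hε)).exists
    rw [Set.univ_inter, dist_eq_norm] at hF
    have h2 := Metric.tendsto_nhds.mp (cov_shift_tend hE F (dl ((g, 1), i))) (ε / 2) (half_pos hε)
    filter_upwards [h2] with v hv
    rw [dist_zero_right, norm_norm] at hv ⊢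
    -- move the cut through `R v`
    have hF1 : E0 (F : Set Λ) * R 1 = E0 (F : Set Λ) := by
      have e1 := hE.cov 1 (F : Set Λ)
      rw [inv_one] at e1
      have e2 : ({w : Λ | w * 1 ∈ (F : Set Λ)}) = (F : Set Λ) := by
        ext w; rw [Set.mem_setOf_eq, mul_one]
      rw [e2] at e1
      calc E0 (F : Set Λ) * R 1 = R 1 * E0 (F : Set Λ) * R 1 * R 1 := by rw [e1]
        _ = R 1 * E0 (F : Set Λ) * R 1 := by rw [mul_assoc, hR.one_mul_one]
        _ = _ := e1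
    have hF2 : R v * E0 (F : Set Λ) = E0 {w | w * v ∈ (F : Set Λ)} * R v := by
      rw [← hE.cov v (F : Set Λ), mul_assoc, hR.inv_mul, mul_assoc, hF1]
    have h3 : M (R v (E0 (F : Set Λ) (dl x₀))) =
        M (E0 {w | w * v ∈ (F : Set Λ)} (R v (dl x₀))) :=
      congrArg (fun A => M (A (dl x₀))) hF2
    have h4 : ‖M (E0 {w | w * v ∈ (F : Set Λ)} (R v (dl x₀)))‖ ≤
        ‖E0 {w | w * v ∈ (F : Set Λ)} (dl ((g, 1), i))‖ := by
      rw [hM]
      refine fib_bound (hR.ra v) (hR.opNorm_le v) (hq _) ?_ g i x₀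
      have := (IsSelfAdjoint.of_nonneg (hE.nonneg {w | w * v ∈ (F : Set Λ)})).star_eq
      rwa [star_eq_adjoint] at this
    have h5 : R v (dl x₀) = R v (E0 (F : Set Λ) (dl x₀)) -
        R v (E0 (F : Set Λ) (dl x₀) - R 1 (dl x₀)) := by
      rw [map_sub, hR.app v 1, mul_one]; abel
    change ‖M (R v (dl x₀))‖ < ε
    rw [h5, map_sub, h3]
    have h6 : ‖M (R v (E0 (F : Set Λ) (dl x₀) - R 1 (dl x₀)))‖ < ε / 2 :=
      ((hM1 _).trans (hR.norm_le v _)).trans_lt hF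
    exact (norm_sub_le _ _).trans_lt (by linarith)

/-- **Escape of the first leg.** -/
theorem arep_esc (hR : ARep t R) (hE : CovFam R E0)
    (hq : ∀ A (q : Q), E0 A * lx ((1 : Γ), q) = lx ((1 : Γ), q) * E0 A) {F : Γ → ℝ}
    (hF : (Function.support F).Finite) (η : Ell2 ((Γ × Q) × ι)) :
    Tendsto (fun v => ‖mp ι (fun x : Γ × Q => F x.1) (R v η)‖) cofinite (𝓝 0) := by
  classical
  obtain ⟨s, hs⟩ : ∃ s : Finset (Γ × ι), s = hF.toFinset ×ˢ Finset.univ := ⟨_, rfl⟩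
  obtain ⟨C, hC⟩ : ∃ C : ℝ, ∀ g, |F g| ≤ C := by
    obtain ⟨C, hC⟩ := (hF.image (fun g => |F g|)).bddAbove
    refine ⟨max C 0, fun g => ?_⟩
    by_cases hg : F g = 0
    · rw [hg, abs_zero]; exact le_max_right _ _
    · exact (hC ⟨g, hg, rfl⟩).trans (le_max_left _ _)
  have h1 : (fun x : (Γ × Q) × ι => F x.1.1) =
      fun x => ∑ p ∈ s, F p.1 * ind (fun x : (Γ × Q) × ι => x.1.1 = p.1 ∧ x.2 = p.2) x := by
    funext x
    by_cases hx : F x.1.1 = 0
    · rw [hx, Finset.sum_eq_zero]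
      rintro p -
      by_cases h : x.1.1 = p.1 ∧ x.2 = p.2
      · rw [← h.1, hx, zero_mul]
      · rw [ind_neg (P := fun x : (Γ × Q) × ι => x.1.1 = p.1 ∧ x.2 = p.2) h, mul_zero]
    · rw [Finset.sum_eq_single (x.1.1, x.2)]
      · rw [ind_pos (P := fun y : (Γ × Q) × ι => y.1.1 = x.1.1 ∧ y.2 = x.2) ⟨rfl, rfl⟩, mul_one]
      · intro p _ hp
        rw [ind_neg (P := fun x : (Γ × Q) × ι => x.1.1 = p.1 ∧ x.2 = p.2), mul_zero]
        rintro ⟨h1, h2⟩
        exact hp (Prod.ext h1.symm h2.symm)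
      · intro h
        exact absurd (by rw [hs, Finset.mem_product, Set.Finite.mem_toFinset]
                         exact ⟨hx, Finset.mem_univ _⟩) h
  have h2 : ∀ ξ : Ell2 ((Γ × Q) × ι), mp ι (fun x : Γ × Q => F x.1) ξ =
      ∑ p ∈ s, (F p.1 : ℂ) • mo (ind fun x : (Γ × Q) × ι => x.1.1 = p.1 ∧ x.2 = p.2) ξ := by
    intro ξ
    rw [mp, h1, mo_sum s _ (C := C)]
    · refine Finset.sum_congr rfl fun p _ => ?_
      rw [mo_smul _ (abs_ind_le _)]
    · intro p x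
      rw [abs_mul]
      calc _ ≤ C * 1 := mul_le_mul (hC _) (abs_ind_le _ _) (abs_nonneg _)
            ((abs_nonneg _).trans (hC p.1))
        _ = C := mul_one _
  have h3 : Tendsto (fun v => ∑ p ∈ s, ‖(F p.1 : ℂ)‖ *
      ‖mo (ind fun x : (Γ × Q) × ι => x.1.1 = p.1 ∧ x.2 = p.2) (R v η)‖) cofinite (𝓝 0) := by
    rw [← Finset.sum_const_zero (s := s)]
    refine tendsto_finset_sum _ fun p _ => ?_
    have := (arep_esc_fib hR hE hq p.1 p.2 η).const_mul ‖(F p.1 : ℂ)‖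
    rwa [mul_zero] at this
  refine squeeze_zero (fun v => norm_nonneg _) (fun v => ?_) h3
  rw [h2]
  refine (norm_sum_le _ _).trans (Finset.sum_le_sum fun p _ => ?_)
  rw [norm_smul]

end arep

section ind

variable {𝔾 Λ Γ Q ι : Type} [Group 𝔾] [Group Λ] [Countable Λ] [Group Γ] [Countable Γ] [Group Q]
  [Countable Q] [Fintype ι] {t : ℝ} {R : Λ → (Ell2 ((Γ × Q) × ι) →L[ℂ] Ell2 ((Γ × Q) × ι))}
  {E0 : Set Λ → (Ell2 ((Γ × Q) × ι) →L[ℂ] Ell2 ((Γ × Q) × ι))}

/-- Escape of the first leg of the induced representation. -/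
theorem esc_fst_ri (d : CData 𝔾 Λ) (hR : ARep t R) (hE : CovFam R E0)
    (hq : ∀ A (q : Q), E0 A * lx ((1 : Γ), q) = lx ((1 : Γ), q) * E0 A) {F : Γ → ℝ}
    (hF : (Function.support F).Finite) {l : Filter 𝔾}
    (hl : ∀ F : Finset Λ, Tendsto (fun w => d.μ {x | d.c w x ∈ F}) l (𝓝 0))
    (ξ : Lp (Ell2 ((Γ × Q) × ι)) 2 d.μ) :
    Tendsto (fun w => ‖(H538.fst (H790.baseL d.μ (Γ × Q) ι)).mp F (Ri d R w ξ)‖) l (𝓝 0) :=
  ri_esc d hR.opNorm_le (arep_esc hR hE hq hF) hl ξ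

end ind

section coc

variable {E : Type} [Group E] [TopologicalSpace E] [IsTopologicalGroup E] [LocallyCompactSpace E]
  [SecondCountableTopology E] [T2Space E] [MeasurableSpace E] [BorelSpace E]
  (Λ : Subgroup E) [DiscreteTopology Λ] [MeasurableSpace (E ⧸ Λ)] [BorelSpace (E ⧸ Λ)]
  (ν : Measure (E ⧸ Λ)) [IsProbabilityMeasure ν] (hν : ∀ g : E, ν.map (fun x => g • x) = ν)
  {Γ Q ι : Type} [Group Γ] [Countable Γ] [Group Q] [Countable Q] [Fintype ι] {t : ℝ}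
  {R : Λ → (Ell2 ((Γ × Q) × ι) →L[ℂ] Ell2 ((Γ × Q) × ι))}
  {E0 : Set Λ → (Ell2 ((Γ × Q) × ι) →L[ℂ] Ell2 ((Γ × Q) × ι))}

/-- **Escape of the first leg** in the model over `E ⧸ Λ`, along every filter that leaves the
compact sets of `E`. -/
theorem esc_fst (hR : ARep t R) (hE : CovFam R E0)
    (hq : ∀ A (q : Q), E0 A * lx ((1 : Γ), q) = lx ((1 : Γ), q) * E0 A) {F : Γ → ℝ}
    (hF : (Function.support F).Finite) {l : Filter E} (hl : l ≤ cocompact E)
    (ξ : Lp (Ell2 ((Γ × Q) × ι)) 2 (cdat ν hν).μ) :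
    Tendsto (fun w => ‖(H538.fst (H790.baseL (cdat ν hν).μ (Γ × Q) ι)).mp F
      (Ri (cdat ν hν) R w ξ)‖) l (𝓝 0) := by
  have : Countable Λ := H790.countable_of_discrete Λ
  exact esc_fst_ri (cdat ν hν) hR hE hq hF (fun F => (coc_esc Λ ν hν F).mono_left hl) ξ

/-- Sets: `m {g}`. -/
theorem esc_fst_ind (hR : ARep t R) (hE : CovFam R E0)
    (hq : ∀ A (q : Q), E0 A * lx ((1 : Γ), q) = lx ((1 : Γ), q) * E0 A) {S : Set Γ}
    (hS : S.Finite) {l : Filter E} (hl : l ≤ cocompact E)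
    (ξ : Lp (Ell2 ((Γ × Q) × ι)) 2 (cdat ν hν).μ) :
    Tendsto (fun w => ‖(H538.fst (H790.baseL (cdat ν hν).μ (Γ × Q) ι)).mp (ind fun g => g ∈ S)
      (Ri (cdat ν hν) R w ξ)‖) l (𝓝 0) := by
  refine esc_fst Λ ν hν hR hE hq (hS.subset fun g hg => ?_) hl ξ
  by_contra h
  exact hg (ind_neg (P := fun g => g ∈ S) h)

/-- **`Esc`**, the powers of `b`. -/
theorem esc_pow (hR : ARep t R) (hE : CovFam R E0)
    (hq : ∀ A (q : Q), E0 A * lx ((1 : Γ), q) = lx ((1 : Γ), q) * E0 A) {b : E}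
    (hb : Tendsto (fun n : ℕ => b ^ n) atTop (cocompact E))
    (Bd : Set (Lp (Ell2 ((Γ × Q) × ι)) 2 (cdat ν hν).μ)) :
    H859.CL.Esc (fun S : Set Γ => (H538.fst (H790.baseL (cdat ν hν).μ (Γ × Q) ι)).mp
        (ind fun g => g ∈ S)) (Ri (cdat ν hν) R) Bd (Subgroup.zpowers b)
      (map (fun n : ℕ => b ^ n) atTop) :=
  ⟨eventually_map.mpr (Eventually.of_forall fun n => Subgroup.npow_mem_zpowers b n),
    fun g ξ _ => esc_fst_ind Λ ν hν hR hE hq (Set.finite_singleton g) hb ξ⟩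

/-- **`Esc`**, the powers of `b⁻¹`. -/
theorem esc_pow_inv (hR : ARep t R) (hE : CovFam R E0)
    (hq : ∀ A (q : Q), E0 A * lx ((1 : Γ), q) = lx ((1 : Γ), q) * E0 A) {b : E}
    (hb : Tendsto (fun n : ℕ => b ^ n) atTop (cocompact E))
    (Bd : Set (Lp (Ell2 ((Γ × Q) × ι)) 2 (cdat ν hν).μ)) :
    H859.CL.Esc (fun S : Set Γ => (H538.fst (H790.baseL (cdat ν hν).μ (Γ × Q) ι)).mp
        (ind fun g => g ∈ S)) (Ri (cdat ν hν) R) Bd (Subgroup.zpowers b)
      (map (fun n : ℕ => b⁻¹ ^ n) atTop) := by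
  have h1 : Tendsto (fun n : ℕ => b⁻¹ ^ n) atTop (cocompact E) := by
    have h2 := (Homeomorph.inv E).isClosedEmbedding.tendsto_cocompact.comp hb
    refine h2.congr fun n => ?_
    change (b ^ n)⁻¹ = b⁻¹ ^ n
    rw [inv_pow]
  exact ⟨eventually_map.mpr (Eventually.of_forall fun n =>
      Subgroup.pow_mem _ (Subgroup.inv_mem _ (Subgroup.mem_zpowers b)) n),
    fun g ξ _ => esc_fst_ind Λ ν hν hR hE hq (Set.finite_singleton g) h1 ξ⟩

end coc

end Vale.Agent.P092.H541
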