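import Mathlib.MeasureTheory.Measure.Haar.DistribChar
import Mathlib.MeasureTheory.Measure.Haar.OfBasis
import Mathlib.MeasureTheory.Integral.Bochner.Set
import Mathlib.Analysis.SpecialFunctions.Pow.Real
import Mathlib.Analysis.Normed.Module.FiniteDimension
import Mathlib.LinearAlgebra.Matrix.ToLin

/-!
P092 (helper541), team N, [N-GAPB] (#6876 (2)): the kernel of two norms `‖A v‖`, `‖B v‖` on
`k^κ`: definitions.
-/

set_option linter.all false

open MeasureTheory Matrix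

namespace Vale.Agent.P092.H541.Hel

variable {k : Type} [NontriviallyNormedField k] {ι κ : Type} [Fintype ι] [Fintype κ]

/-- the shell `1 ≤ ‖v‖ < ‖t‖`, a fundamental domain of the scalings by powers of `t` -/
def D (κ : Type) [Fintype κ] (t : k) : Set (κ → k) := {v | 1 ≤ ‖v‖ ∧ ‖v‖ < ‖t‖}

variable [MeasurableSpace k]

/-- `α` is the exponent of the half densities: multiplication by `t` multiplies the measure `μ`
by `‖t‖ ^ (2 * α)` -/
structure Sc (μ : Measure (κ → k)) (t : k) (α : ℝ) : Prop where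
  one_lt : 1 < ‖t‖
  pos : 0 < α
  scale : ∀ S : Set (κ → k),
    μ ((fun v => t • v) ⁻¹' S) * ENNReal.ofReal (‖t‖ ^ (2 * α)) = μ S

/-- the pairing of the half densities `‖A v‖ ^ (-α)`, `‖B v‖ ^ (-α)` -/
noncomputable def PR (μ : Measure (κ → k)) (t : k) (α : ℝ) (A B : Matrix ι κ k) : ℝ :=
  ∫ v in D κ t, ‖A *ᵥ v‖ ^ (-α) * ‖B *ᵥ v‖ ^ (-α) ∂μ

/-- the square of the norm of the half density `‖A v‖ ^ (-α)` -/
noncomputable def NR (μ : Measure (κ → k)) (t : k) (α : ℝ) (A : Matrix ι κ k) : ℝ :=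
  ∫ v in D κ t, ‖A *ᵥ v‖ ^ (-(2 * α)) ∂μ

/-- the normalised pairing -/
noncomputable def KY (μ : Measure (κ → k)) (t : k) (α : ℝ) (A B : Matrix ι κ k) : ℝ :=
  PR μ t α A B / √(NR μ t α A * NR μ t α B)

theorem PR_self (μ : Measure (κ → k)) (t : k) (α : ℝ) (A : Matrix ι κ k)
    (hA : ∀ v ∈ D κ t, A *ᵥ v ≠ 0) (hD : MeasurableSet (D κ t)) :
    PR μ t α A A = NR μ t α A := by
  unfold PR NR
  refine setIntegral_congr_fun hD fun v hv => ?_
  have h := norm_pos_iff.2 (hA v hv)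
  show ‖A *ᵥ v‖ ^ (-α) * ‖A *ᵥ v‖ ^ (-α) = _
  rw [← Real.rpow_add h]
  congr 1
  ring

end Vale.Agent.P092.H541.Hel
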