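import Vale.Agent.P092.H541.HelDef
import Mathlib

/-!
P092 (helper541), team N, [N-GAPB] (#6876 (2)): bounds for the kernel of two norms on `k^κ`.
-/

set_option linter.all false

open MeasureTheory Matrix Set

namespace Vale.Agent.P092.H541.Hel

variable {k : Type} [NontriviallyNormedField k] [ProperSpace k] [MeasurableSpace k] [BorelSpace k]
  {ι κ : Type} [Fintype ι] [Fintype κ]

omit [ProperSpace k] [MeasurableSpace k] [BorelSpace k] [Fintype ι] in
theorem cont_mulVec (A : Matrix ι κ k) : Continuous fun v : κ → k => A *ᵥ v :=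
  continuous_const.matrix_mulVec continuous_id

theorem meas_D (t : k) : MeasurableSet (D κ t) :=
  ((isClosed_le continuous_const continuous_norm).measurableSet).inter
    (isOpen_lt continuous_norm continuous_const).measurableSet

/-- the closed shell -/
def D' (κ : Type) [Fintype κ] (t : k) : Set (κ → k) := {v | 1 ≤ ‖v‖ ∧ ‖v‖ ≤ ‖t‖}

omit [MeasurableSpace k] [BorelSpace k] in
theorem compact_D' (t : k) : IsCompact (D' κ t) := by
  have h : D' κ t = Metric.closedBall 0 ‖t‖ ∩ {v | 1 ≤ ‖v‖} := by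
    ext v; simp [D', and_comm]
  rw [h]
  exact (isCompact_closedBall _ _).inter_right (isClosed_le continuous_const continuous_norm)

omit [ProperSpace k] [MeasurableSpace k] [BorelSpace k] in
theorem D_sub (t : k) : D κ t ⊆ D' κ t := fun v hv => ⟨hv.1, hv.2.le⟩

/-- injective matrices -/
def Inj (A : Matrix ι κ k) : Prop := ∀ v, A *ᵥ v = 0 → v = 0

section basic

variable {μ : Measure (κ → k)} {t : k} {α : ℝ}

theorem fin_D [IsFiniteMeasureOnCompacts μ] : μ (D κ t) < ⊤ :=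
  (measure_mono (D_sub t)).trans_lt (compact_D' t).measure_lt_top

omit [ProperSpace k] [MeasurableSpace k] [BorelSpace k] in
theorem ne_zero_of_D {v : κ → k} (hv : v ∈ D' κ t) : v ≠ 0 := fun h => by
  have := hv.1
  rw [h, norm_zero] at this
  linarith

omit [ProperSpace k] [MeasurableSpace k] [BorelSpace k] in
theorem pos_of_inj {A : Matrix ι κ k} (hA : Inj A) {v : κ → k} (hv : v ≠ 0) : 0 < ‖A *ᵥ v‖ :=
  norm_pos_iff.2 fun h => hv (hA v h)

omit [MeasurableSpace k] [BorelSpace k] [ProperSpace k] in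
theorem cont_rpow {A : Matrix ι κ k} (hA : Inj A) (p : ℝ) :
    ContinuousOn (fun v : κ → k => ‖A *ᵥ v‖ ^ p) (D' κ t) := by
  refine ContinuousOn.rpow_const (cont_mulVec A).norm.continuousOn fun v hv => ?_
  exact Or.inl (pos_of_inj hA (ne_zero_of_D hv)).ne'

theorem int_rpow [IsFiniteMeasureOnCompacts μ] {A : Matrix ι κ k} (hA : Inj A) (p : ℝ) :
    IntegrableOn (fun v : κ → k => ‖A *ᵥ v‖ ^ p) (D κ t) μ :=
  ((cont_rpow hA p).integrableOn_compact (compact_D' t)).mono_set (D_sub t)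

theorem int_rpow2 [IsFiniteMeasureOnCompacts μ] {A B : Matrix ι κ k} (hA : Inj A) (hB : Inj B)
    (p q : ℝ) : IntegrableOn (fun v : κ → k => ‖A *ᵥ v‖ ^ p * ‖B *ᵥ v‖ ^ q) (D κ t) μ :=
  (((cont_rpow hA p).mul (cont_rpow hB q)).integrableOn_compact (compact_D' t)).mono_set (D_sub t)

end basic

/-! ### Cauchy-Schwarz -/

theorem cs {X : Type} [MeasurableSpace X] {μ : Measure X} {f g : X → ℝ} {s : Set X}
    (hf : IntegrableOn (fun x => f x * f x) s μ) (hg : IntegrableOn (fun x => g x * g x) s μ)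
    (hfg : IntegrableOn (fun x => f x * g x) s μ) :
    (∫ x in s, f x * g x ∂μ) ^ 2 ≤ (∫ x in s, f x * f x ∂μ) * ∫ x in s, g x * g x ∂μ := by
  have h : ∀ y : ℝ, 0 ≤ (∫ x in s, f x * f x ∂μ) * (y * y) + (2 * ∫ x in s, f x * g x ∂μ) * y +
      ∫ x in s, g x * g x ∂μ := fun y => by
    have h0 : 0 ≤ ∫ x in s, (f x * y + g x) * (f x * y + g x) ∂μ :=
      integral_nonneg fun x => mul_self_nonneg _
    have h1 : (∫ x in s, (f x * y + g x) * (f x * y + g x) ∂μ) =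
        (∫ x in s, f x * f x ∂μ) * (y * y) + (2 * ∫ x in s, f x * g x ∂μ) * y +
      ∫ x in s, g x * g x ∂μ := by
      have e : ∀ x, (f x * y + g x) * (f x * y + g x) =
          f x * f x * (y * y) + f x * g x * (2 * y) + g x * g x := fun x => by ring
      simp only [e]
      rw [integral_add _ hg, integral_add (hf.mul_const _) (hfg.mul_const _),
        integral_mul_const, integral_mul_const]
      · ring
      · exact (hf.mul_const _).add (hfg.mul_const _)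
    rw [← h1]; exact h0
  have hd := discrim_le_zero h
  unfold discrim at hd
  nlinarith

/-! ### Positivity -/

section pos

variable {μ : Measure (κ → k)} [μ.IsAddHaarMeasure] {t : k} {α : ℝ} [Nonempty κ]

omit [ProperSpace k] [MeasurableSpace k] [BorelSpace k] [Nonempty κ] in
theorem preim_ball {t : k} (ht : 1 < ‖t‖) (r : ℝ) :
    (fun v : κ → k => t • v) ⁻¹' Metric.ball 0 (‖t‖ * r) = Metric.ball 0 r := by
  ext v
  simp only [mem_preimage, mem_ball_zero_iff, norm_smul]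
  exact mul_lt_mul_iff_right₀ (by linarith)

theorem real_ball (h : Sc μ t α) (r : ℝ) :
    μ.real (Metric.ball 0 (‖t‖ * r)) = ‖t‖ ^ (2 * α) * μ.real (Metric.ball (0 : κ → k) r) := by
  have h1 := h.scale (Metric.ball 0 (‖t‖ * r))
  rw [preim_ball h.one_lt] at h1
  unfold Measure.real
  rw [← h1, ENNReal.toReal_mul, ENNReal.toReal_ofReal (Real.rpow_nonneg (norm_nonneg _) _),
    mul_comm]

theorem one_lt_M (h : Sc μ t α) : 1 < ‖t‖ ^ (2 * α) :=
  Real.one_lt_rpow h.one_lt (by linarith [h.pos])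

theorem ball_pos (r : ℝ) (hr : 0 < r) : 0 < μ.real (Metric.ball (0 : κ → k) r) :=
  ENNReal.toReal_pos (Metric.measure_ball_pos μ _ hr).ne' measure_ball_lt_top.ne

theorem D_pos (h : Sc μ t α) : 0 < μ.real (D κ t) := by
  have h1 : D κ t = Metric.ball 0 (‖t‖ * 1) \ Metric.ball (0 : κ → k) 1 := by
    ext v; simp [D, and_comm]
  have h2 := real_ball h 1
  have h3 := ball_pos (μ := μ) (κ := κ) 1 one_pos
  have h4 := one_lt_M h
  rw [h1, measureReal_diff (Metric.ball_subset_ball (by linarith [h.one_lt]))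
    Metric.isOpen_ball.measurableSet measure_ball_lt_top.ne, h2]
  nlinarith

omit [Nonempty κ] in
theorem const_le_int {f : (κ → k) → ℝ} {c : ℝ} {s : Set (κ → k)} (hs : MeasurableSet s)
    (hf : IntegrableOn f s μ) (hfin : μ s ≠ ⊤) (h : ∀ v ∈ s, c ≤ f v) :
    c * μ.real s ≤ ∫ v in s, f v ∂μ := by
  have h1 : ∫ _ in s, c ∂μ ≤ ∫ v in s, f v ∂μ :=
    setIntegral_mono_on (integrableOn_const hfin) hf hs h
  rw [setIntegral_const, smul_eq_mul] at h1
  linarith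

omit [Nonempty κ] in
theorem int_le_const {f : (κ → k) → ℝ} {c : ℝ} {s : Set (κ → k)} (hs : MeasurableSet s)
    (hf : IntegrableOn f s μ) (hfin : μ s ≠ ⊤) (h : ∀ v ∈ s, f v ≤ c) :
    ∫ v in s, f v ∂μ ≤ c * μ.real s := by
  have h1 : ∫ v in s, f v ∂μ ≤ ∫ _ in s, c ∂μ :=
    setIntegral_mono_on hf (integrableOn_const hfin) hs h
  rw [setIntegral_const, smul_eq_mul] at h1
  linarith

omit [MeasurableSpace k] [BorelSpace k] [ProperSpace k] [Nonempty κ] in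
theorem mulVec_le {A : Matrix ι κ k} {e : ℝ} (h0 : 0 ≤ e) (he : ∀ x y, ‖A x y‖ ≤ e)
    (v : κ → k) : ‖A *ᵥ v‖ ≤ Fintype.card κ * e * ‖v‖ := by
  refine (pi_norm_le_iff_of_nonneg (by positivity)).2 fun x => ?_
  calc ‖(A *ᵥ v) x‖ = ‖∑ y, A x y * v y‖ := rfl
    _ ≤ ∑ y, ‖A x y * v y‖ := norm_sum_le _ _
    _ ≤ ∑ _y : κ, e * ‖v‖ := Finset.sum_le_sum fun y _ => by
        rw [norm_mul]
        exact mul_le_mul (he x y) (norm_le_pi_norm v y) (norm_nonneg _) h0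
    _ = Fintype.card κ * e * ‖v‖ := by
        rw [Finset.sum_const, Finset.card_univ, nsmul_eq_mul]; ring

theorem NR_pos (h : Sc μ t α) {A : Matrix ι κ k} (hA : Inj A) : 0 < NR μ t α A := by
  have hne : (D κ t).Nonempty := by
    by_contra h0
    rw [Set.not_nonempty_iff_eq_empty] at h0
    have := D_pos h
    rw [h0] at this
    simp at this
  obtain ⟨v₀, hv₀, hmin⟩ := (compact_D' (κ := κ) t).exists_isMinOn (hne.mono (D_sub t))
    (cont_rpow (t := t) hA (-(2 * α)))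
  have hc : 0 < ‖A *ᵥ v₀‖ ^ (-(2 * α)) := Real.rpow_pos_of_pos (pos_of_inj hA (ne_zero_of_D hv₀)) _
  exact (mul_pos hc (D_pos h)).trans_le
    (const_le_int (meas_D t) (int_rpow hA _) fin_D.ne fun v hv => hmin (D_sub t hv))

omit [Nonempty κ] in
theorem PR_nonneg (A B : Matrix ι κ k) : 0 ≤ PR μ t α A B :=
  integral_nonneg fun v => mul_nonneg (Real.rpow_nonneg (norm_nonneg _) _)
    (Real.rpow_nonneg (norm_nonneg _) _)

omit [Nonempty κ] in
theorem NR_nonneg (A : Matrix ι κ k) : 0 ≤ NR μ t α A :=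
  integral_nonneg fun v => Real.rpow_nonneg (norm_nonneg _) _

omit [μ.IsAddHaarMeasure] [Nonempty κ] [MeasurableSpace k] [BorelSpace k] [ProperSpace k] in
theorem sq_rpow {x : ℝ} (hx : 0 < x) : x ^ (-α) * x ^ (-α) = x ^ (-(2 * α)) := by
  rw [← Real.rpow_add hx]; congr 1; ring

omit [Nonempty κ] in
theorem NR_eq {A : Matrix ι κ k} (hA : Inj A) :
    NR μ t α A = ∫ v in D κ t, ‖A *ᵥ v‖ ^ (-α) * ‖A *ᵥ v‖ ^ (-α) ∂μ :=
  setIntegral_congr_fun (meas_D t) fun v hv =>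
    (sq_rpow (pos_of_inj hA (ne_zero_of_D (D_sub t hv)))).symm

omit [Nonempty κ] in
theorem PR_sq_le {A B : Matrix ι κ k} (hA : Inj A) (hB : Inj B) :
    PR μ t α A B ^ 2 ≤ NR μ t α A * NR μ t α B := by
  rw [NR_eq hA, NR_eq hB]
  exact cs (int_rpow2 hA hA _ _) (int_rpow2 hB hB _ _) (int_rpow2 hA hB _ _)

omit [Nonempty κ] in
theorem KY_nonneg (A B : Matrix ι κ k) : 0 ≤ KY μ t α A B :=
  div_nonneg (PR_nonneg A B) (Real.sqrt_nonneg _)

omit [Nonempty κ] in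
theorem KY_le_one {A B : Matrix ι κ k} (hA : Inj A) (hB : Inj B) : KY μ t α A B ≤ 1 := by
  unfold KY
  refine div_le_one_of_le₀ ?_ (Real.sqrt_nonneg _)
  exact Real.le_sqrt_of_sq_le (PR_sq_le hA hB)

omit [Nonempty κ] in
theorem PR_comm (A B : Matrix ι κ k) : PR μ t α A B = PR μ t α B A := by
  unfold PR
  simp only [mul_comm]

omit [Nonempty κ] in
theorem KY_comm (A B : Matrix ι κ k) : KY μ t α A B = KY μ t α B A := by
  unfold KY
  rw [PR_comm, mul_comm (NR μ t α A)]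

theorem KY_self (h : Sc μ t α) {A : Matrix ι κ k} (hA : Inj A) : KY μ t α A A = 1 := by
  unfold KY
  rw [PR_self μ t α A (fun v hv => fun h0 => ne_zero_of_D (D_sub t hv) (hA v h0)) (meas_D t),
    Real.sqrt_mul_self (NR_nonneg A)]
  exact div_self (NR_pos h hA).ne'

/-! ### Scalars -/

omit [Nonempty κ] in
theorem PR_smul (c : k) (A B : Matrix ι κ k) :
    PR μ t α (c • A) B = ‖c‖ ^ (-α) * PR μ t α A B := by
  unfold PR
  rw [← integral_const_mul]
  congr 1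
  ext v
  rw [smul_mulVec, norm_smul, Real.mul_rpow (norm_nonneg _) (norm_nonneg _)]
  ring

omit [Nonempty κ] in
theorem NR_smul (c : k) (A : Matrix ι κ k) :
    NR μ t α (c • A) = ‖c‖ ^ (-(2 * α)) * NR μ t α A := by
  unfold NR
  rw [← integral_const_mul]
  congr 1
  ext v
  rw [smul_mulVec, norm_smul, Real.mul_rpow (norm_nonneg _) (norm_nonneg _)]

omit [Nonempty κ] in
theorem KY_smul {c : k} (hc : c ≠ 0) (A B : Matrix ι κ k) :
    KY μ t α (c • A) B = KY μ t α A B := by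
  have h0 : 0 < ‖c‖ := norm_pos_iff.2 hc
  have h1 : 0 < ‖c‖ ^ (-α) := Real.rpow_pos_of_pos h0 _
  unfold KY
  rw [PR_smul, NR_smul, ← sq_rpow h0, mul_assoc (‖c‖ ^ (-α) * ‖c‖ ^ (-α)),
    Real.sqrt_mul (by positivity), Real.sqrt_mul_self h1.le, mul_div_mul_left _ _ h1.ne']

omit [Nonempty κ] in
theorem KY_smul' {c : k} (hc : c ≠ 0) (A B : Matrix ι κ k) :
    KY μ t α A (c • B) = KY μ t α A B := by
  rw [KY_comm, KY_smul hc, KY_comm]

/-! ### Lower bound -/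

theorem KY_lower (h : Sc μ t α) {A B : Matrix ι κ k} (hA : Inj A) (hB : Inj B) {c₁ c₂ : ℝ}
    (h1 : 0 < c₁) (h2 : 0 < c₂) (h12 : ∀ v ∈ D κ t, c₁ * ‖B *ᵥ v‖ ≤ ‖A *ᵥ v‖)
    (h22 : ∀ v ∈ D κ t, ‖A *ᵥ v‖ ≤ c₂ * ‖B *ᵥ v‖) : (c₁ / c₂) ^ α ≤ KY μ t α A B := by
  have hp := h.pos
  have hN := NR_pos h hB
  have e1 : c₂ ^ (-α) * NR μ t α B ≤ PR μ t α A B := by
    rw [NR_eq hB, ← integral_const_mul]
    refine setIntegral_mono_on ((int_rpow2 hB hB _ _).const_mul _) (int_rpow2 hA hB _ _)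
      (meas_D t) fun v hv => ?_
    have hv0 := ne_zero_of_D (D_sub t hv)
    have hb := pos_of_inj hB hv0
    have ha := pos_of_inj hA hv0
    rw [← mul_assoc]
    refine mul_le_mul_of_nonneg_right ?_ (Real.rpow_nonneg hb.le _)
    rw [← Real.mul_rpow h2.le hb.le]
    exact Real.rpow_le_rpow_of_nonpos ha (h22 v hv) (by linarith)
  have e2 : NR μ t α A ≤ c₁ ^ (-(2 * α)) * NR μ t α B := by
    unfold NR
    rw [← integral_const_mul]
    refine setIntegral_mono_on (int_rpow hA _) ((int_rpow hB _).const_mul _)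
      (meas_D t) fun v hv => ?_
    have hv0 := ne_zero_of_D (D_sub t hv)
    have hb := pos_of_inj hB hv0
    have ha := pos_of_inj hA hv0
    rw [← Real.mul_rpow h1.le hb.le]
    exact Real.rpow_le_rpow_of_nonpos (by positivity) (h12 v hv) (by linarith)
  have e3 : √(NR μ t α A * NR μ t α B) ≤ c₁ ^ (-α) * NR μ t α B := by
    rw [Real.sqrt_le_left (by positivity)]
    calc NR μ t α A * NR μ t α B ≤ c₁ ^ (-(2 * α)) * NR μ t α B * NR μ t α B :=
          mul_le_mul_of_nonneg_right e2 hN.le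
      _ = (c₁ ^ (-α) * NR μ t α B) ^ 2 := by
          rw [← sq_rpow h1]; ring
  have e4 : 0 < √(NR μ t α A * NR μ t α B) := Real.sqrt_pos.2 (mul_pos (NR_pos h hA) hN)
  unfold KY
  rw [le_div_iff₀ e4]
  calc (c₁ / c₂) ^ α * √(NR μ t α A * NR μ t α B)
      ≤ (c₁ / c₂) ^ α * (c₁ ^ (-α) * NR μ t α B) :=
        mul_le_mul_of_nonneg_left e3 (by positivity)
    _ = c₂ ^ (-α) * NR μ t α B := by
        rw [Real.div_rpow h1.le h2.le, Real.rpow_neg h1.le, Real.rpow_neg h2.le]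
        have := (Real.rpow_pos_of_pos h1 α).ne'
        have := (Real.rpow_pos_of_pos h2 α).ne'
        field_simp
    _ ≤ _ := e1

/-! ### Separated points -/

omit [ProperSpace k] [MeasurableSpace k] [BorelSpace k] in
theorem exists_sep (N : ℕ) {δ : ℝ} (hδ : 0 < δ) : ∃ (c : ℕ → k) (s : ℝ), 0 < s ∧
    (∀ i, ‖c i‖ ≤ δ) ∧ ∀ i < N, ∀ j < N, i ≠ j → s ≤ ‖c i - c j‖ := by
  obtain ⟨x, hx0, hx⟩ := NormedField.exists_norm_lt k (lt_min hδ (by norm_num : (0 : ℝ) < 1 / 2))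
  have hx1 : ‖x‖ < 1 := hx.trans_le ((min_le_right _ _).trans (by norm_num))
  have hx2 : ‖x‖ ≤ 1 / 2 := (hx.trans_le (min_le_right _ _)).le
  refine ⟨fun i => x ^ (i + 1), ‖x‖ ^ (N + 1) / 2 , by positivity, fun i => ?_, fun i hi j hj hij => ?_⟩
  · rw [norm_pow, pow_succ]
    have h1 : ‖x‖ ^ i ≤ 1 := pow_le_one₀ hx0.le hx1.le
    have h2 : ‖x‖ ≤ δ := (hx.trans_le (min_le_left _ _)).le
    nlinarith [norm_nonneg x]
  · have key' : ∀ i j : ℕ, i < j → j < N + 1 → ‖x‖ ^ (N + 1) / 2 ≤ ‖x ^ i - x ^ j‖ := by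
      intro i j hij hj
      have h1 : ‖x‖ ^ j ≤ ‖x‖ ^ i * (1 / 2) := by
        calc ‖x‖ ^ j ≤ ‖x‖ ^ (i + 1) := pow_le_pow_of_le_one hx0.le hx1.le hij
          _ = ‖x‖ ^ i * ‖x‖ := pow_succ _ _
          _ ≤ ‖x‖ ^ i * (1 / 2) := mul_le_mul_of_nonneg_left hx2 (by positivity)
      have h2 : ‖x‖ ^ (N + 1) ≤ ‖x‖ ^ i := pow_le_pow_of_le_one hx0.le hx1.le (by omega)
      have h3 : ‖x ^ i‖ - ‖x ^ j‖ ≤ ‖x ^ i - x ^ j‖ := norm_sub_norm_le _ _
      rw [norm_pow, norm_pow] at h3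
      linarith
    rcases lt_or_gt_of_ne hij with h | h
    · exact key' (i + 1) (j + 1) (by omega) (by omega)
    · rw [norm_sub_rev]
      exact key' (j + 1) (i + 1) (by omega) (by omega)

/-! ### Slabs -/

omit [Nonempty κ] in
/-- the set where `‖A v‖` is much smaller than an entry of `A` has small measure -/
theorem slab [DecidableEq κ] (t : k) {ε : ℝ} (hε : 0 < ε) : ∃ ρ : ℝ, 0 < ρ ∧
    ∀ (A : Matrix ι κ k) x y, μ.real {v | v ∈ D κ t ∧ ‖A *ᵥ v‖ < ρ * ‖A x y‖} ≤ ε := by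
  set B : ℝ := μ.real (Metric.ball (0 : κ → k) (‖t‖ + 2))
  obtain ⟨N, hN⟩ := exists_nat_gt (B / ε)
  have hB0 : 0 ≤ B := measureReal_nonneg
  have hN0 : (0 : ℝ) < N := (div_nonneg hB0 hε.le).trans_lt hN
  obtain ⟨c, s, hs, hc1, hc2⟩ := exists_sep (k := k) N (one_pos)
  refine ⟨s / 2, by positivity, fun A x y => ?_⟩
  rcases eq_or_ne (A x y) 0 with h0 | h0
  · have : {v | v ∈ D κ t ∧ ‖A *ᵥ v‖ < s / 2 * ‖A x y‖} = ∅ := by
      ext v
      simp only [mem_setOf_eq, mem_empty_iff_false, iff_false, not_and, not_lt]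
      intro _
      rw [h0, norm_zero, mul_zero]
      exact norm_nonneg _
    rw [this]; simpa using hε.le
  have hA0 : 0 < ‖A x y‖ := norm_pos_iff.2 h0
  set S : Set (κ → k) := {v | ‖v‖ < ‖t‖ + 1 ∧ ‖(A *ᵥ v) x‖ < s / 2 * ‖A x y‖}
  have hS : MeasurableSet S :=
    ((isOpen_lt continuous_norm continuous_const).inter (isOpen_lt
      ((continuous_apply x).comp (cont_mulVec A)).norm continuous_const)).measurableSet
  have hsub : {v | v ∈ D κ t ∧ ‖A *ᵥ v‖ < s / 2 * ‖A x y‖} ⊆ S := fun v hv =>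
    ⟨by linarith [hv.1.2], (norm_le_pi_norm (A *ᵥ v) x).trans_lt hv.2⟩
  have hSfin : μ S ≠ ⊤ := ((measure_mono fun v hv =>
    mem_ball_zero_iff.2 hv.1).trans_lt measure_ball_lt_top).ne
  refine (measureReal_mono hsub hSfin).trans ?_
  let T : ℕ → Set (κ → k) := fun i => (fun v => Pi.single y (-c i) + v) ⁻¹' S
  have hTm : ∀ i, MeasurableSet (T i) := fun i => (measurable_const_add _) hS
  have hTS : ∀ i, μ.real (T i) = μ.real S := fun i => by
    unfold Measure.real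
    rw [measure_preimage_add]
  have hval : ∀ (v : κ → k) (z : k), (A *ᵥ (Pi.single y z + v)) x = A x y * z + (A *ᵥ v) x := by
    intro v z
    rw [mulVec_add, Pi.add_apply, mulVec_single]
    simp
  have hdis : ∀ i ∈ Finset.range N, ∀ j ∈ Finset.range N, i ≠ j → Disjoint (T i) (T j) := by
    intro i hi j hj hij
    rw [Set.disjoint_left]
    intro v hv1 hv2
    have h1 := hv1.2
    have h2 := hv2.2
    rw [hval] at h1 h2
    have h3 : A x y * (c j - c i) = (A x y * -c i + (A *ᵥ v) x) - (A x y * -c j + (A *ᵥ v) x) := by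
      ring
    have h4 : ‖A x y * (c j - c i)‖ < s * ‖A x y‖ := by
      rw [h3]
      exact (norm_sub_le _ _).trans_lt (by linarith)
    rw [norm_mul, mul_comm] at h4
    have h5 := hc2 j (Finset.mem_range.1 hj) i (Finset.mem_range.1 hi) hij.symm
    nlinarith
  have hU : μ.real (⋃ i ∈ Finset.range N, T i) = N * μ.real S := by
    rw [measureReal_biUnion_finset (fun i hi j hj hij => hdis i hi j hj hij) (fun i _ => hTm i)
      (fun i _ => ?_)]
    · simp only [hTS, Finset.sum_const, Finset.card_range, nsmul_eq_mul]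
    · show μ (T i) ≠ ⊤
      rw [show μ (T i) = μ S from measure_preimage_add μ _ S]
      exact hSfin
  have hUB : (⋃ i ∈ Finset.range N, T i) ⊆ Metric.ball (0 : κ → k) (‖t‖ + 2) := by
    intro v hv
    simp only [mem_iUnion] at hv
    obtain ⟨i, _, hv⟩ := hv
    have h1 : ‖(Pi.single y (-c i) : κ → k) + v‖ < ‖t‖ + 1 := hv.1
    have h2 : ‖(Pi.single y (-c i) : κ → k)‖ ≤ 1 := by
      rw [Pi.norm_single, norm_neg]; exact hc1 i
    have h3 : v = ((Pi.single y (-c i) : κ → k) + v) - Pi.single y (-c i) := by abel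
    rw [mem_ball_zero_iff, h3]
    exact (norm_sub_le _ _).trans_lt (by linarith)
  have hfin : N * μ.real S ≤ B := by
    rw [← hU]
    exact measureReal_mono hUB measure_ball_lt_top.ne
  rw [div_lt_iff₀ hε] at hN
  by_contra hcon
  rw [not_le] at hcon
  nlinarith

/-! ### Scaling of homogeneous integrals -/

theorem int_scale (h : Sc μ t α) {F : (κ → k) → ℝ} (hF : ∀ v, F (t • v) = ‖t‖ ^ (-(2 * α)) * F v)
    {S : Set (κ → k)} (hS : MeasurableSet S) :
    ∫ v in (fun v => t • v) ⁻¹' S, F v ∂μ = ∫ v in S, F v ∂μ := by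
  have ht : t ≠ 0 := fun h0 => by
    have := h.one_lt
    rw [h0, norm_zero] at this
    linarith
  have hM : 0 < ‖t‖ ^ (2 * α) := Real.rpow_pos_of_pos (by linarith [h.one_lt]) _
  have hme : MeasurableEmbedding fun v : κ → k => t • v := measurableEmbedding_const_smul₀ ht
  have hμ : μ = ENNReal.ofReal (‖t‖ ^ (2 * α)) • μ.map fun v => t • v := by
    ext s hs
    rw [Measure.smul_apply, hme.map_apply, smul_eq_mul, mul_comm, h.scale]
  conv_rhs => rw [hμ]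
  rw [Measure.restrict_smul, integral_smul_measure, ENNReal.toReal_ofReal hM.le,
    hme.setIntegral_map]
  simp only [hF]
  rw [integral_const_mul, smul_eq_mul, ← mul_assoc, ← Real.rpow_add (by linarith [h.one_lt]),
    add_neg_cancel, Real.rpow_zero, one_mul]

/-- three shells -/
def D3 (κ : Type) [Fintype κ] (t : k) : Set (κ → k) := {v | ‖t‖⁻¹ ≤ ‖v‖ ∧ ‖v‖ < ‖t‖ * ‖t‖}

omit [ProperSpace k] [MeasurableSpace k] [BorelSpace k] [Nonempty κ] in
theorem D3_ne {t : k} (ht : 1 < ‖t‖) {v : κ → k} (hv : v ∈ D3 κ t) : v ≠ 0 := fun h0 => by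
  have h1 := hv.1
  rw [h0, norm_zero] at h1
  have : 0 < ‖t‖⁻¹ := inv_pos.2 (by linarith)
  linarith

theorem int_D3 (h : Sc μ t α) {A : Matrix ι κ k} (hA : Inj A) :
    IntegrableOn (fun v : κ → k => ‖A *ᵥ v‖ ^ (-(2 * α))) (D3 κ t) μ ∧
    ∫ v in D3 κ t, ‖A *ᵥ v‖ ^ (-(2 * α)) ∂μ = 3 * NR μ t α A := by
  have ht := h.one_lt
  have ht0 : 0 < ‖t‖ := by linarith
  have hi1 : ‖t‖⁻¹ < 1 := inv_lt_one_of_one_lt₀ ht
  set F : (κ → k) → ℝ := fun v => ‖A *ᵥ v‖ ^ (-(2 * α)) with hFd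
  have hF : ∀ v, F (t • v) = ‖t‖ ^ (-(2 * α)) * F v := fun v => by
    simp only [hFd]
    rw [mulVec_smul, norm_smul, Real.mul_rpow (norm_nonneg _) (norm_nonneg _)]
  have hint : IntegrableOn F (D3 κ t) μ := by
    have hc : IsCompact {v : κ → k | ‖t‖⁻¹ ≤ ‖v‖ ∧ ‖v‖ ≤ ‖t‖ * ‖t‖} := by
      have e : {v : κ → k | ‖t‖⁻¹ ≤ ‖v‖ ∧ ‖v‖ ≤ ‖t‖ * ‖t‖} =
          Metric.closedBall 0 (‖t‖ * ‖t‖) ∩ {v | ‖t‖⁻¹ ≤ ‖v‖} := by
        ext v; simp [and_comm]
      rw [e]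
      exact (isCompact_closedBall _ _).inter_right (isClosed_le continuous_const continuous_norm)
    have hcont : ContinuousOn F {v : κ → k | ‖t‖⁻¹ ≤ ‖v‖ ∧ ‖v‖ ≤ ‖t‖ * ‖t‖} := ?_
    · exact IntegrableOn.mono_set (hcont.integrableOn_compact hc)
        fun v hv => ⟨hv.1, hv.2.le⟩
    refine ContinuousOn.rpow_const (cont_mulVec A).norm.continuousOn fun v hv => ?_
    refine Or.inl (pos_of_inj hA fun h0 => ?_).ne'
    have h1 := hv.1
    rw [h0, norm_zero] at h1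
    have : 0 < ‖t‖⁻¹ := inv_pos.2 ht0
    linarith
  refine ⟨hint, ?_⟩
  set Dm : Set (κ → k) := (fun v => t • v) ⁻¹' D κ t
  set Dp : Set (κ → k) := {v | ‖t‖ ≤ ‖v‖ ∧ ‖v‖ < ‖t‖ * ‖t‖}
  have hDm : MeasurableSet Dm := (measurable_const_smul t) (meas_D t)
  have hDp : MeasurableSet Dp := ((isClosed_le continuous_const continuous_norm).measurableSet).inter
    (isOpen_lt continuous_norm continuous_const).measurableSet
  have hpre : (fun v : κ → k => t • v) ⁻¹' Dp = D κ t := by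
    ext v
    simp only [Dp, D, mem_preimage, mem_setOf_eq, norm_smul]
    constructor
    · rintro ⟨h1, h2⟩
      exact ⟨by nlinarith, lt_of_mul_lt_mul_left h2 ht0.le⟩
    · rintro ⟨h1, h2⟩
      exact ⟨by nlinarith, mul_lt_mul_of_pos_left h2 ht0⟩
  have hDm' : ∀ v, v ∈ Dm ↔ ‖t‖⁻¹ ≤ ‖v‖ ∧ ‖v‖ < 1 := fun v => by
    simp only [Dm, D, mem_preimage, mem_setOf_eq, norm_smul]
    rw [inv_le_iff_one_le_mul₀' ht0]
    refine and_congr_right fun _ => ?_
    constructor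
    · intro h2
      by_contra h3
      rw [not_lt] at h3
      nlinarith
    · intro h2
      nlinarith
  have hun : D3 κ t = (Dm ∪ D κ t) ∪ Dp := by
    ext v
    simp only [mem_union, hDm', D3, D, Dp, mem_setOf_eq]
    constructor
    · rintro ⟨h1, h2⟩
      rcases lt_or_ge ‖v‖ 1 with h3 | h3
      · exact Or.inl (Or.inl ⟨h1, h3⟩)
      · rcases lt_or_ge ‖v‖ ‖t‖ with h4 | h4
        · exact Or.inl (Or.inr ⟨h3, h4⟩)
        · exact Or.inr ⟨h4, h2⟩
    · rintro ((⟨h1, h2⟩ | ⟨h1, h2⟩) | ⟨h1, h2⟩)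
      · exact ⟨h1, by nlinarith⟩
      · exact ⟨by linarith, by nlinarith⟩
      · exact ⟨by linarith, h2⟩
  have hd1 : Disjoint Dm (D κ t) := Set.disjoint_left.2 fun v h1 h2 => by
    have := ((hDm' v).1 h1).2
    have := h2.1
    linarith
  have hd2 : Disjoint (Dm ∪ D κ t) Dp := Set.disjoint_left.2 fun v h1 h2 => by
    have h3 := h2.1
    rcases h1 with h1 | h1
    · have := ((hDm' v).1 h1).2
      linarith
    · have := h1.2
      linarith
  have hs1 : Dm ⊆ D3 κ t := hun ▸ fun v hv => Or.inl (Or.inl hv)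
  have hs2 : D κ t ⊆ D3 κ t := hun ▸ fun v hv => Or.inl (Or.inr hv)
  have hs3 : Dp ⊆ D3 κ t := hun ▸ fun v hv => Or.inr hv
  have hNR : NR μ t α A = ∫ v in D κ t, F v ∂μ := rfl
  rw [hun, setIntegral_union hd2 hDp (hint.mono_set (Set.union_subset hs1 hs2))
    (hint.mono_set hs3),
    setIntegral_union hd1 (meas_D t) (hint.mono_set hs1) (hint.mono_set hs2),
    int_scale h hF (meas_D t), ← int_scale h hF hDp, hpre, hNR]
  ring

/-! ### The norm of the half density of an ill conditioned matrix -/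

theorem ball_inv_pow (h : Sc μ t α) (m : ℕ) : μ.real (Metric.ball (0 : κ → k) (‖t‖⁻¹ ^ m)) =
    (‖t‖⁻¹ ^ m) ^ (2 * α) * μ.real (Metric.ball (0 : κ → k) 1) := by
  have ht0 : 0 < ‖t‖ := by linarith [h.one_lt]
  have hti : 0 ≤ ‖t‖⁻¹ := (inv_pos.2 ht0).le
  induction m with
  | zero => simp
  | succ m ih =>
    have h1 := real_ball h (‖t‖⁻¹ ^ (m + 1))
    have e1 : ‖t‖ * ‖t‖⁻¹ ^ (m + 1) = ‖t‖⁻¹ ^ m := by
      rw [pow_succ, mul_comm (‖t‖⁻¹ ^ m), ← mul_assoc, mul_inv_cancel₀ ht0.ne', one_mul]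
    rw [e1, ih] at h1
    have hM : 0 < ‖t‖ ^ (2 * α) := Real.rpow_pos_of_pos ht0 _
    have e2 : (‖t‖⁻¹ ^ (m + 1)) ^ (2 * α) = (‖t‖ ^ (2 * α))⁻¹ * (‖t‖⁻¹ ^ m) ^ (2 * α) := by
      rw [pow_succ, mul_comm, Real.mul_rpow hti (by positivity), Real.inv_rpow ht0.le]
    rw [e2, mul_assoc, h1, ← mul_assoc, inv_mul_cancel₀ hM.ne', one_mul]

theorem NR_big (h : Sc μ t α) (L : ℝ) : ∃ η : ℝ, 0 < η ∧ ∀ (A : Matrix ι κ k) (a : ℝ), 0 < a →
    Inj A → (∀ v, ‖A *ᵥ v‖ ≤ a * ‖v‖) → (∃ v ∈ D κ t, ‖A *ᵥ v‖ ≤ η * a) →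
    L ≤ NR μ t α A * a ^ (2 * α) := by
  have ht := h.one_lt
  have ht0 : 0 < ‖t‖ := by linarith
  have hi1 : ‖t‖⁻¹ < 1 := inv_lt_one_of_one_lt₀ ht
  have hα := h.pos
  set m₁ : ℝ := μ.real (Metric.ball (0 : κ → k) 1)
  have hm₁ : 0 < m₁ := ball_pos 1 one_pos
  have h2α : 0 < (2 : ℝ) ^ (2 * α) := by positivity
  obtain ⟨N, hN⟩ := exists_nat_gt (3 * 2 ^ (2 * α) * L / m₁)
  rw [div_lt_iff₀ hm₁] at hN
  -- the radius of the safe neighbourhood
  set r₀ : ℝ := min (1 - ‖t‖⁻¹) (‖t‖ * ‖t‖ - ‖t‖)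
  have hr₀ : 0 < r₀ := lt_min (by linarith) (by nlinarith)
  set δ : ℝ := min 1 (r₀ / (2 * ‖t‖))
  have hδ : 0 < δ := lt_min one_pos (by positivity)
  obtain ⟨c, s₀, hs₀, hc1, hc2⟩ := exists_sep (k := k) N hδ
  -- the radius of the balls
  obtain ⟨m, hm⟩ := exists_pow_lt_of_lt_one (lt_min (half_pos hr₀) (half_pos hs₀)) hi1
  set s : ℝ := ‖t‖⁻¹ ^ m
  have hs : 0 < s := pow_pos (inv_pos.2 ht0) m
  have hsr : s < r₀ / 2 := hm.trans_le (min_le_left _ _)
  have hss : s < s₀ / 2 := hm.trans_le (min_le_right _ _)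
  refine ⟨s / 2, by positivity, fun A a ha hA hAa hex => ?_⟩
  obtain ⟨v₀, hv₀, hAv⟩ := hex
  have hv1 : 1 ≤ ‖v₀‖ := hv₀.1
  have hv2 : ‖v₀‖ < ‖t‖ := hv₀.2
  obtain ⟨hint, h3⟩ := int_D3 h hA
  let F : (κ → k) → ℝ := fun v => ‖A *ᵥ v‖ ^ (-(2 * α))
  let T : ℕ → Set (κ → k) := fun i => (fun v => -((1 + c i) • v₀) + v) ⁻¹' Metric.ball 0 s
  have hTm : ∀ i, MeasurableSet (T i) := fun i =>
    (measurable_const_add _) Metric.isOpen_ball.measurableSet
  have hTS : ∀ i, μ (T i) = μ (Metric.ball (0 : κ → k) s) := fun i => measure_preimage_add _ _ _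
  have hTf : ∀ i, μ (T i) ≠ ⊤ := fun i => by rw [hTS]; exact measure_ball_lt_top.ne
  have hTd : ∀ i ∈ Finset.range N, ∀ j ∈ Finset.range N, i ≠ j → Disjoint (T i) (T j) := by
    intro i hi j hj hij
    rw [Set.disjoint_left]
    intro v hv1' hv2'
    have h1 : ‖-((1 + c i) • v₀) + v‖ < s := mem_ball_zero_iff.1 hv1'
    have h2 : ‖-((1 + c j) • v₀) + v‖ < s := mem_ball_zero_iff.1 hv2'
    have e : (c i - c j) • v₀ = (-((1 + c j) • v₀) + v) - (-((1 + c i) • v₀) + v) := by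
      simp only [sub_smul, add_smul]
      abel
    have h4 : ‖(c i - c j) • v₀‖ < 2 * s := by
      rw [e]; exact (norm_sub_le _ _).trans_lt (by linarith)
    rw [norm_smul] at h4
    have h5 := hc2 i (Finset.mem_range.1 hi) j (Finset.mem_range.1 hj) hij
    nlinarith
  set U : Set (κ → k) := ⋃ i ∈ Finset.range N, T i
  have hUr : μ.real U = N * (s ^ (2 * α) * m₁) := by
    show μ.real (⋃ i ∈ Finset.range N, T i) = _
    rw [measureReal_biUnion_finset (fun i hi j hj hij => hTd i hi j hj hij) (fun i _ => hTm i)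
      (fun i _ => hTf i)]
    have e : ∀ i, μ.real (T i) = s ^ (2 * α) * m₁ := fun i => by
      unfold Measure.real
      rw [hTS]
      exact ball_inv_pow h m
    simp only [e, Finset.sum_const, Finset.card_range, nsmul_eq_mul]
  have hUm : MeasurableSet U := Finset.measurableSet_biUnion _ fun i _ => hTm i
  have hpt : ∀ v ∈ U, v ∈ D3 κ t ∧ ‖A *ᵥ v‖ ≤ 2 * a * s := by
    intro v hv
    simp only [U, mem_iUnion] at hv
    obtain ⟨i, _, hv⟩ := hv
    have h1 : ‖-((1 + c i) • v₀) + v‖ < s := mem_ball_zero_iff.1 hv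
    set u : κ → k := -((1 + c i) • v₀) + v
    have hvu : v = v₀ + (c i • v₀ + u) := by
      simp only [u, add_smul, one_smul]; abel
    have hci : ‖c i‖ ≤ δ := hc1 i
    have hδ1 : δ ≤ 1 := min_le_left _ _
    have hδ2 : δ * ‖t‖ ≤ r₀ / 2 := by
      have : δ ≤ r₀ / (2 * ‖t‖) := min_le_right _ _
      calc δ * ‖t‖ ≤ r₀ / (2 * ‖t‖) * ‖t‖ := mul_le_mul_of_nonneg_right this ht0.le
        _ = r₀ / 2 := by field_simp
    have h6 : ‖c i • v₀ + u‖ < r₀ := by
      calc ‖c i • v₀ + u‖ ≤ ‖c i‖ * ‖v₀‖ + ‖u‖ := (norm_add_le _ _).trans (by rw [norm_smul])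
        _ < r₀ := by nlinarith [norm_nonneg v₀, norm_nonneg (c i)]
    have h7 : ‖v‖ ≤ ‖v₀‖ + ‖c i • v₀ + u‖ := by rw [hvu]; exact norm_add_le _ _
    have h8 : ‖v₀‖ - ‖c i • v₀ + u‖ ≤ ‖v‖ := by
      have := norm_sub_norm_le v₀ (-(c i • v₀ + u))
      rw [norm_neg, sub_neg_eq_add, ← hvu] at this
      exact this
    have hr1 : r₀ ≤ 1 - ‖t‖⁻¹ := min_le_left _ _
    have hr2 : r₀ ≤ ‖t‖ * ‖t‖ - ‖t‖ := min_le_right _ _
    refine ⟨⟨by linarith, by linarith⟩, ?_⟩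
    have e : A *ᵥ v = (1 + c i) • (A *ᵥ v₀) + A *ᵥ u := by
      rw [← mulVec_smul, ← mulVec_add]
      congr 1
      simp only [u]; abel
    have h9 : ‖(1 : k) + c i‖ ≤ 2 := (norm_add_le _ _).trans (by rw [norm_one]; linarith)
    calc ‖A *ᵥ v‖ ≤ ‖(1 : k) + c i‖ * ‖A *ᵥ v₀‖ + ‖A *ᵥ u‖ := by
          rw [e]; exact (norm_add_le _ _).trans (by rw [norm_smul])
      _ ≤ 2 * (s / 2 * a) + a * s := by
          refine add_le_add (mul_le_mul h9 hAv (norm_nonneg _) (by norm_num)) ?_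
          exact (hAa u).trans (mul_le_mul_of_nonneg_left h1.le ha.le)
      _ = 2 * a * s := by ring
  have hUs : U ⊆ D3 κ t := fun v hv => (hpt v hv).1
  have hUf : μ U ≠ ⊤ := by
    refine ((measure_mono (hUs.trans fun v hv => ?_ :
      U ⊆ Metric.ball (0 : κ → k) (‖t‖ * ‖t‖))).trans_lt measure_ball_lt_top).ne
    exact mem_ball_zero_iff.2 hv.2
  have h10 : (2 * a * s) ^ (-(2 * α)) * μ.real U ≤ ∫ v in U, F v ∂μ :=
    const_le_int hUm (hint.mono_set hUs) hUf fun v hv =>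
      Real.rpow_le_rpow_of_nonpos (pos_of_inj hA (D3_ne ht (hUs hv))) (hpt v hv).2 (by linarith)
  have h11 : ∫ v in U, F v ∂μ ≤ 3 * NR μ t α A := by
    rw [← h3]
    exact setIntegral_mono_set hint
      (ae_of_all _ fun v => Real.rpow_nonneg (norm_nonneg _) _) hUs.eventuallyLE
  have h12 : (N : ℝ) * m₁ ≤ 3 * 2 ^ (2 * α) * (NR μ t α A * a ^ (2 * α)) := by
    have e : (2 * a * s) ^ (-(2 * α)) * μ.real U * (2 ^ (2 * α) * a ^ (2 * α)) = N * m₁ := by
      rw [hUr, Real.rpow_neg (by positivity), Real.mul_rpow (by positivity) hs.le,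
        Real.mul_rpow (by norm_num) ha.le]
      have := (Real.rpow_pos_of_pos ha (2 * α)).ne'
      have := (Real.rpow_pos_of_pos hs (2 * α)).ne'
      field_simp
    rw [← e]
    calc _ ≤ 3 * NR μ t α A * (2 ^ (2 * α) * a ^ (2 * α)) :=
          mul_le_mul_of_nonneg_right (h10.trans h11) (by positivity)
      _ = _ := by ring
  by_contra hcon
  rw [not_le] at hcon
  nlinarith

/-! ### Upper bound -/

/-- **The kernel of an ill conditioned and a well conditioned matrix is small.** -/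
theorem KY_upper [DecidableEq κ] (h : Sc μ t α) {ε b₁ b₂ : ℝ} (hε : 0 < ε) (hb₁ : 0 < b₁)
    (hb₂ : 0 < b₂) : ∃ η : ℝ, 0 < η ∧ ∀ (A B : Matrix ι κ k) (e : ℝ), 0 < e →
    Inj A → (∀ v ∈ D κ t, b₁ ≤ ‖B *ᵥ v‖) → (∀ v ∈ D κ t, ‖B *ᵥ v‖ ≤ b₂) → Inj B →
    (∀ x y, ‖A x y‖ ≤ e) → (∃ x y, e ≤ ‖A x y‖) → (∃ v ∈ D κ t, ‖A *ᵥ v‖ ≤ η * e) →
    KY μ t α A B ≤ ε := by
  have hα := h.pos
  set mD : ℝ := μ.real (D κ t)
  have hmD : 0 < mD := D_pos h
  set K : ℝ := b₁ ^ (-α) * (√(b₂ ^ (-(2 * α)) * mD))⁻¹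
  have hK : 0 < K := by positivity
  obtain ⟨ρ, hρ, hslab⟩ := slab (μ := μ) (κ := κ) (ι := ι) t
    (show 0 < (ε / (2 * K)) ^ 2 by positivity)
  set q : ℝ := ρ ^ (-α) * mD
  have hq : 0 < q := by positivity
  set cκ : ℝ := (Fintype.card κ : ℝ)
  have hcκ : 0 < cκ := by
    have := Fintype.card_pos (α := κ)
    show (0 : ℝ) < (Fintype.card κ : ℝ)
    exact Nat.cast_pos.2 this
  obtain ⟨η, hη, hbig⟩ := NR_big (ι := ι) h ((2 * K * q * cκ ^ α / ε) ^ 2)
  refine ⟨η * cκ, by positivity, fun A B e he hA hB1 hB2 hBi hAe hAx hAv => ?_⟩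
  obtain ⟨x, y, hxy⟩ := hAx
  have hxy' : ‖A x y‖ = e := le_antisymm (hAe x y) hxy
  have hN := NR_pos h hA
  have hNB := NR_pos h hBi
  have hsN : 0 < √(NR μ t α A) := Real.sqrt_pos.2 hN
  -- the norm of the half density of `A`
  have h1 : (2 * K * q * cκ ^ α / ε) ^ 2 ≤ NR μ t α A * (cκ * e) ^ (2 * α) := by
    refine hbig A (cκ * e) (by positivity) hA (mulVec_le he.le hAe) ?_
    obtain ⟨v, hv, hv'⟩ := hAv
    exact ⟨v, hv, hv'.trans (by nlinarith)⟩
  have h2 : 2 * K * q * cκ ^ α / ε ≤ √(NR μ t α A) * (cκ * e) ^ α := by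
    have e1 : (√(NR μ t α A) * (cκ * e) ^ α) ^ 2 = NR μ t α A * (cκ * e) ^ (2 * α) := by
      rw [mul_pow, Real.sq_sqrt hN.le, ← Real.rpow_natCast, ← Real.rpow_mul (by positivity)]
      congr 2
      push_cast; ring
    rw [← e1] at h1
    exact (pow_le_pow_iff_left₀ (by positivity) (by positivity) two_ne_zero).1 h1
  have h3 : 2 * K * q / ε ≤ √(NR μ t α A) * e ^ α := by
    rw [Real.mul_rpow hcκ.le he.le] at h2
    have hc : 0 < cκ ^ α := by positivity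
    have e1 : 2 * K * q * cκ ^ α / ε = cκ ^ α * (2 * K * q / ε) := by ring
    have e2 : √(NR μ t α A) * (cκ ^ α * e ^ α) = cκ ^ α * (√(NR μ t α A) * e ^ α) := by ring
    rw [e1, e2] at h2
    exact le_of_mul_le_mul_left h2 hc
  -- the half density of `B`
  have h4 : b₂ ^ (-(2 * α)) * mD ≤ NR μ t α B :=
    const_le_int (meas_D t) (int_rpow hBi _) fin_D.ne fun v hv =>
      Real.rpow_le_rpow_of_nonpos (pos_of_inj hBi (ne_zero_of_D (D_sub t hv))) (hB2 v hv)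
        (by linarith)
  -- the two pieces
  set S : Set (κ → k) := {v | v ∈ D κ t ∧ ‖A *ᵥ v‖ < ρ * e}
  have hSm : MeasurableSet S := (meas_D t).inter
    (isOpen_lt (cont_mulVec A).norm continuous_const).measurableSet
  have hSD : S ⊆ D κ t := fun v hv => hv.1
  have hS : μ.real S ≤ (ε / (2 * K)) ^ 2 := by
    have := hslab A x y
    rwa [hxy'] at this
  have hiA : IntegrableOn (fun v : κ → k => ‖A *ᵥ v‖ ^ (-α)) (D κ t) μ := int_rpow hA _
  have hpc1 : ∫ v in S, ‖A *ᵥ v‖ ^ (-α) ∂μ ≤ ε / (2 * K) * √(NR μ t α A) := by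
    have hone : IntegrableOn (fun _ : κ → k => (1 : ℝ) * 1) S μ :=
      integrableOn_const ((measure_mono hSD).trans_lt fin_D).ne
    have hone' : IntegrableOn (fun v : κ → k => ‖A *ᵥ v‖ ^ (-α) * 1) S μ :=
      (hiA.mono_set hSD).mul_const 1
    have h5 := cs (μ := μ) (s := S) (f := fun v : κ → k => ‖A *ᵥ v‖ ^ (-α)) (g := fun _ => (1 : ℝ))
      ((int_rpow2 hA hA _ _).mono_set hSD) hone hone'
    simp only [mul_one] at h5
    rw [setIntegral_const, smul_eq_mul, mul_one] at h5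
    have h6 : ∫ v in S, ‖A *ᵥ v‖ ^ (-α) * ‖A *ᵥ v‖ ^ (-α) ∂μ ≤ NR μ t α A := by
      rw [NR_eq hA]
      exact setIntegral_mono_set (int_rpow2 hA hA _ _)
        (ae_of_all _ fun v => mul_nonneg (Real.rpow_nonneg (norm_nonneg _) _)
          (Real.rpow_nonneg (norm_nonneg _) _)) hSD.eventuallyLE
    have h7 : (∫ v in S, ‖A *ᵥ v‖ ^ (-α) ∂μ) ^ 2 ≤ (ε / (2 * K) * √(NR μ t α A)) ^ 2 := by
      rw [mul_pow, Real.sq_sqrt hN.le]
      calc _ ≤ _ := h5
        _ ≤ NR μ t α A * (ε / (2 * K)) ^ 2 :=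
          mul_le_mul h6 hS measureReal_nonneg hN.le
        _ = _ := by ring
    exact (pow_le_pow_iff_left₀ (integral_nonneg fun v => Real.rpow_nonneg (norm_nonneg _) _)
      (by positivity) two_ne_zero).1 h7
  have hpc2 : ∫ v in D κ t \ S, ‖A *ᵥ v‖ ^ (-α) ∂μ ≤ (ρ * e) ^ (-α) * mD := by
    have h5 : ∫ v in D κ t \ S, ‖A *ᵥ v‖ ^ (-α) ∂μ ≤ (ρ * e) ^ (-α) * μ.real (D κ t \ S) := by
      refine int_le_const ((meas_D t).diff hSm) (hiA.mono_set diff_subset)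
        ((measure_mono diff_subset).trans_lt fin_D).ne fun v hv => ?_
      have h6 : ρ * e ≤ ‖A *ᵥ v‖ := by
        by_contra h7
        exact hv.2 ⟨hv.1, not_le.1 h7⟩
      exact Real.rpow_le_rpow_of_nonpos (by positivity) h6 (by linarith)
    exact h5.trans (mul_le_mul_of_nonneg_left (measureReal_mono diff_subset fin_D.ne)
      (by positivity))
  have hsum : ∫ v in D κ t, ‖A *ᵥ v‖ ^ (-α) ∂μ ≤ ε / (2 * K) * √(NR μ t α A) +
      (ρ * e) ^ (-α) * mD := by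
    have h5 : ∫ v in D κ t, ‖A *ᵥ v‖ ^ (-α) ∂μ =
        (∫ v in S, ‖A *ᵥ v‖ ^ (-α) ∂μ) + ∫ v in D κ t \ S, ‖A *ᵥ v‖ ^ (-α) ∂μ := by
      rw [← setIntegral_union disjoint_sdiff_right ((meas_D t).diff hSm) (hiA.mono_set hSD)
        (hiA.mono_set diff_subset), Set.union_diff_cancel hSD]
    rw [h5]
    exact add_le_add hpc1 hpc2
  have hPR : PR μ t α A B ≤ b₁ ^ (-α) * ∫ v in D κ t, ‖A *ᵥ v‖ ^ (-α) ∂μ := by
    unfold PR
    rw [← integral_const_mul]
    refine setIntegral_mono_on (int_rpow2 hA hBi _ _) (hiA.const_mul _) (meas_D t) fun v hv => ?_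
    rw [mul_comm]
    exact mul_le_mul_of_nonneg_right (Real.rpow_le_rpow_of_nonpos hb₁ (hB1 v hv) (by linarith))
      (Real.rpow_nonneg (norm_nonneg _) _)
  unfold KY
  rw [Real.sqrt_mul hN.le, div_le_iff₀ (mul_pos hsN (Real.sqrt_pos.2 hNB))]
  have h8 : (ρ * e) ^ (-α) * mD ≤ ε / (2 * K) * √(NR μ t α A) := by
    have e1 : (ρ * e) ^ (-α) * mD = q / e ^ α := by
      rw [Real.mul_rpow hρ.le he.le, Real.rpow_neg he.le]
      simp only [q]
      ring
    have he' : 0 < e ^ α := by positivity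
    rw [e1, div_le_iff₀ he']
    rw [div_le_iff₀ hε] at h3
    have : q = (2 * K * q) / (2 * K) := by field_simp
    rw [this, div_le_iff₀ (by positivity)]
    calc 2 * K * q ≤ √(NR μ t α A) * e ^ α * ε := h3
      _ = ε / (2 * K) * √(NR μ t α A) * e ^ α * (2 * K) := by field_simp
  have h9 : b₁ ^ (-α) ≤ K * √(NR μ t α B) := by
    have h5 : √(b₂ ^ (-(2 * α)) * mD) ≤ √(NR μ t α B) := Real.sqrt_le_sqrt h4
    have h6 : 0 < √(b₂ ^ (-(2 * α)) * mD) := by positivity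
    calc b₁ ^ (-α) = K * √(b₂ ^ (-(2 * α)) * mD) := by
          simp only [K]
          rw [mul_assoc, inv_mul_cancel₀ h6.ne', mul_one]
      _ ≤ _ := mul_le_mul_of_nonneg_left h5 hK.le
  calc PR μ t α A B ≤ b₁ ^ (-α) * (ε / (2 * K) * √(NR μ t α A) + ε / (2 * K) * √(NR μ t α A)) := by
        refine hPR.trans (mul_le_mul_of_nonneg_left (hsum.trans ?_) (by positivity))
        linarith
    _ ≤ K * √(NR μ t α B) * (ε / (2 * K) * √(NR μ t α A) + ε / (2 * K) * √(NR μ t α A)) :=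
        mul_le_mul_of_nonneg_right h9 (by positivity)
    _ = ε * (√(NR μ t α A) * √(NR μ t α B)) := by field_simp; ring

theorem KY_upper' [DecidableEq κ] (h : Sc μ t α) {ε b₁ b₂ : ℝ} (hε : 0 < ε) (hb₁ : 0 < b₁)
    (hb₂ : 0 < b₂) : ∃ η : ℝ, 0 < η ∧ ∀ A B : Matrix ι κ k, Inj A → Inj B →
    (∀ v ∈ D κ t, b₁ ≤ ‖B *ᵥ v‖) → (∀ v ∈ D κ t, ‖B *ᵥ v‖ ≤ b₂) →
    (∃ v ∈ D κ t, ∃ w ∈ D κ t, ‖A *ᵥ v‖ ≤ η * ‖A *ᵥ w‖) → KY μ t α A B ≤ ε := by
  obtain ⟨η, hη, hK⟩ := KY_upper (ι := ι) h hε hb₁ hb₂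
  have ht0 : 0 < ‖t‖ := by linarith [h.one_lt]
  have hc : 0 < (Fintype.card κ : ℝ) := Nat.cast_pos.2 Fintype.card_pos
  refine ⟨η / (Fintype.card κ * ‖t‖), by positivity, fun A B hA hB h1 h2 hv => ?_⟩
  obtain ⟨v, hv, w, hw, hvw⟩ := hv
  have hv0 := ne_zero_of_D (D_sub t hv)
  have hne : Nonempty ι := by
    by_contra h0
    rw [not_nonempty_iff] at h0
    exact hv0 (hA v (Subsingleton.elim _ _))
  obtain ⟨x, -, hx⟩ := Finset.exists_max_image Finset.univ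
    (fun x : ι × κ => ‖A x.1 x.2‖) Finset.univ_nonempty
  have hmax : ∀ i j, ‖A i j‖ ≤ ‖A x.1 x.2‖ := fun i j => hx (i, j) (Finset.mem_univ _)
  have hpos : 0 < ‖A x.1 x.2‖ := by
    by_contra h0
    have h3 : A = 0 := by
      ext i j
      exact norm_le_zero_iff.1 ((hmax i j).trans (not_lt.1 h0))
    exact hv0 (hA v (by rw [h3, zero_mulVec]))
  refine hK A B ‖A x.1 x.2‖ hpos hA h1 h2 hB hmax ⟨x.1, x.2, le_rfl⟩ ⟨v, hv, hvw.trans ?_⟩
  have h4 : ‖A *ᵥ w‖ ≤ Fintype.card κ * ‖t‖ * ‖A x.1 x.2‖ := by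
    refine (mulVec_le hpos.le hmax w).trans ?_
    have := hw.2.le
    calc (Fintype.card κ : ℝ) * ‖A x.1 x.2‖ * ‖w‖ ≤ Fintype.card κ * ‖A x.1 x.2‖ * ‖t‖ :=
          mul_le_mul_of_nonneg_left this (by positivity)
      _ = _ := by ring
  calc η / (Fintype.card κ * ‖t‖) * ‖A *ᵥ w‖ ≤
      η / (Fintype.card κ * ‖t‖) * (Fintype.card κ * ‖t‖ * ‖A x.1 x.2‖) :=
        mul_le_mul_of_nonneg_left h4 (by positivity)
    _ = η * ‖A x.1 x.2‖ := by field_simp

/-! ### The exponent -/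

omit [ProperSpace k] [MeasurableSpace k] [BorelSpace k] [Nonempty κ] in
theorem exists_zpow_D {t : k} (ht : 1 < ‖t‖) {v : κ → k} (hv : v ≠ 0) :
    ∃ n : ℤ, t ^ n • v ∈ D κ t := by
  obtain ⟨n, h1, h2⟩ := exists_mem_Ico_zpow (norm_pos_iff.2 hv) ht
  have ht0 : 0 < ‖t‖ := by linarith
  have hz : 0 < ‖t‖ ^ n := zpow_pos ht0 n
  refine ⟨-n, ?_, ?_⟩
  · rw [norm_smul, norm_zpow, _root_.zpow_neg, inv_mul_eq_div, le_div_iff₀ hz, one_mul]
    exact h1
  · rw [norm_smul, norm_zpow, _root_.zpow_neg, inv_mul_eq_div, div_lt_iff₀ hz]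
    rwa [zpow_add_one₀ ht0.ne', mul_comm] at h2

/-- every Haar measure has an exponent -/
theorem exists_sc (μ : Measure (κ → k)) [μ.IsAddHaarMeasure] {t : k} (ht : 1 < ‖t‖) :
    ∃ α : ℝ, Sc μ t α := by
  have ht0 : 0 < ‖t‖ := by linarith
  have htn : t ≠ 0 := norm_pos_iff.1 ht0
  let u : kˣ := Units.mk0 t htn
  set c : NNReal := distribHaarChar (κ → k) u
  have hc : ∀ S : Set (κ → k), c * μ ((fun v => t • v) ⁻¹' S) = μ S := fun S => by
    rw [distribHaarChar_mul μ u]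
    congr 1
    ext v
    rw [Set.mem_smul_set_iff_inv_smul_mem, mem_preimage]
    have : t • (u⁻¹ • v) = v := by
      show u • (u⁻¹ • v) = v
      rw [smul_inv_smul]
    rw [this]
  have hball : ∀ n : ℕ, μ (Metric.ball (0 : κ → k) (‖t‖ ^ n)) = c ^ n * μ (Metric.ball 0 1) := by
    intro n
    induction n with
    | zero => simp
    | succ n ih =>
      rw [← hc (Metric.ball 0 (‖t‖ ^ (n + 1))), pow_succ', preim_ball ht, ih, pow_succ', mul_assoc]
  have h1 : 1 < c := by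
    by_contra h0
    rw [not_lt] at h0
    have hnc : NoncompactSpace (κ → k) := NormedSpace.noncompactSpace k (κ → k)
    have h2 : μ univ = ⊤ := measure_univ_of_isAddLeftInvariant μ
    have h3 : (⋃ n : ℕ, Metric.ball (0 : κ → k) (‖t‖ ^ n)) = univ := by
      refine eq_univ_of_forall fun v => ?_
      obtain ⟨n, hn⟩ := pow_unbounded_of_one_lt ‖v‖ ht
      exact mem_iUnion.2 ⟨n, mem_ball_zero_iff.2 hn⟩
    have hmono : Monotone fun n : ℕ => Metric.ball (0 : κ → k) (‖t‖ ^ n) := fun i j hij =>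
      Metric.ball_subset_ball (pow_le_pow_right₀ ht.le hij)
    have h4 : μ univ ≤ μ (Metric.ball (0 : κ → k) 1) := by
      rw [← h3, hmono.measure_iUnion]
      refine iSup_le fun n => ?_
      rw [hball]
      have h5 : ((c : ENNReal) ^ n) ≤ 1 := pow_le_one₀ zero_le (by exact_mod_cast h0)
      calc (c : ENNReal) ^ n * μ (Metric.ball 0 1) ≤ 1 * μ (Metric.ball 0 1) := by gcongr
        _ = _ := one_mul _
    rw [h2] at h4
    exact absurd h4 (not_le.2 measure_ball_lt_top)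
  have hc1 : (1 : ℝ) < c := by exact_mod_cast h1
  have hl : 0 < Real.log ‖t‖ := Real.log_pos ht
  refine ⟨Real.log c / (2 * Real.log ‖t‖), ht, div_pos (Real.log_pos hc1) (by linarith),
    fun S => ?_⟩
  have e : ‖t‖ ^ (2 * (Real.log c / (2 * Real.log ‖t‖))) = c := by
    rw [Real.rpow_def_of_pos ht0]
    have : Real.log ‖t‖ * (2 * (Real.log c / (2 * Real.log ‖t‖))) = Real.log c := by
      field_simp
    rw [this, Real.exp_log (by linarith)]
  rw [e, ENNReal.ofReal_coe_nnreal, mul_comm, hc]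

end pos

end Vale.Agent.P092.H541.Hel
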