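import Vale.Agent.P092.SD.Defs
import Vale.Agent.P092.H655.Tor

/-!
P092 (helper541), team D: the powers of the wall element `bw w` of `SL_3(k)` (and of the wall
element `tor` of `SL_(n+1)(k)`) and of its inverse leave every compact set.
-/

set_option linter.all false

open Filter Topology Matrix

namespace Vale.Agent.P092.H541

open Vale.Agent.P092.H701 (tor dg)
open Vale.Agent.P092.SD (G3 bw)

variable {k : Type} [NontriviallyNormedField k]

theorem tendsto_inv_of {E : Type} [Group E] [TopologicalSpace E] [IsTopologicalGroup E] {b : E}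
    (hb : Tendsto (fun n : ℕ => b ^ n) atTop (cocompact E)) :
    Tendsto (fun n : ℕ => (b ^ n)⁻¹) atTop (cocompact E) :=
  (Homeomorph.inv E).isClosedEmbedding.tendsto_cocompact.comp hb

theorem tendsto_inv_pow_of {E : Type} [Group E] [TopologicalSpace E] [IsTopologicalGroup E] {b : E}
    (hb : Tendsto (fun n : ℕ => b ^ n) atTop (cocompact E)) :
    Tendsto (fun n : ℕ => b⁻¹ ^ n) atTop (cocompact E) := by
  refine (tendsto_inv_of hb).congr fun n => ?_
  rw [inv_pow]

/-- The wall element of `SL_(m+1)(k)`. -/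
theorem tendsto_tor_zero (m : ℕ) (hm : 0 < m) {w : k} (hw : w ≠ 0) (hw1 : 1 < ‖w‖) :
    Tendsto (fun n : ℕ => tor m hw 0 ^ n) atTop
      (cocompact (SpecialLinearGroup (Fin (m + 1)) k)) :=
  H655.tendsto_tor m hw hw1 0 (by simpa using hm)

theorem bw_eq {w : kˣ} : (bw w : G3 k) =
    tor 2 (k := k) (w := ((w⁻¹ : kˣ) : k)) (Units.ne_zero _) 0 := by
  apply Subtype.ext
  change Matrix.diagonal _ = Matrix.diagonal _
  congr 1
  funext i
  fin_cases i
  · simp [dg]
  · simp [dg]
  · simp [dg]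

variable {w : kˣ} (hw : ‖(w : k)‖ < 1)

include hw

theorem tendsto_bw : Tendsto (fun n : ℕ => (bw w : G3 k) ^ n) atTop (cocompact (G3 k)) := by
  have hw' : 1 < ‖((w⁻¹ : kˣ) : k)‖ := by
    rw [Units.val_inv_eq_inv_val, norm_inv]
    exact one_lt_inv_iff₀.2 ⟨norm_pos_iff.2 w.ne_zero, hw⟩
  rw [bw_eq]
  exact tendsto_tor_zero 2 (by norm_num) (Units.ne_zero _) hw'

/-- Along `b = (bw w)⁻¹`. -/
theorem tendsto_bw_inv : Tendsto (fun n : ℕ => ((bw w : G3 k)⁻¹) ^ n) atTop (cocompact (G3 k)) :=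
  tendsto_inv_pow_of (tendsto_bw hw)

theorem tendsto_bw_pow_inv :
    Tendsto (fun n : ℕ => ((bw w : G3 k) ^ n)⁻¹) atTop (cocompact (G3 k)) :=
  tendsto_inv_of (tendsto_bw hw)

end Vale.Agent.P092.H541
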