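import Vale.Agent.P092.H76.DichoE
import Vale.Agent.P092.RC.Cc
import Vale.Agent.P092.H541.BwE

/-!
P092 (helper541), team C, [A-DIS]: the wall element `tor 2 hw 0` of `GG k 2`: its powers tend to
infinity, the contracted groups have the Moore property and generate with the centraliser.
-/

set_option linter.all false

open Filter Topology Matrix

namespace Vale.Agent.P092.H541

open Vale.Agent.P092.H701 (tor dg)
open Vale.Agent.P092.SD (G3 bw)
open Vale.Agent.P092.RC (GG Moore)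
open Vale.Agent.P092.H76.Dicho (Ctr Ctr' moore_ctr moore_ctr' closure_ctr)

section grp

variable {D : Type} [Group D] [TopologicalSpace D]

theorem ctr_inv (b : D) : Ctr b⁻¹ = Ctr' b := by
  ext n
  change Tendsto (fun i : ℕ => b⁻¹ ^ i * n * (b⁻¹ ^ i)⁻¹) atTop (𝓝 1) ↔
    Tendsto (fun i : ℕ => (b ^ i)⁻¹ * n * b ^ i) atTop (𝓝 1)
  refine Filter.tendsto_congr fun i => ?_
  rw [inv_pow, inv_inv]

theorem ctr'_inv (b : D) : Ctr' b⁻¹ = Ctr b := by
  rw [← ctr_inv, inv_inv]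

end grp

variable {k : Type} [NontriviallyNormedField k] {w : k} (hw : w ≠ 0)

theorem tor_eq_bw : (tor 2 hw 0 : G3 k) = bw ((Units.mk0 w hw)⁻¹) := by
  rw [bw_eq]
  apply Subtype.ext
  change Matrix.diagonal _ = Matrix.diagonal _
  congr 1

variable (hw1 : 1 < ‖w‖)

include hw1

theorem norm_lt : ‖(((Units.mk0 w hw)⁻¹ : kˣ) : k)‖ < 1 := by
  rw [Units.val_inv_eq_inv_val, Units.val_mk0, norm_inv]
  exact inv_lt_one_of_one_lt₀ hw1

theorem tendsto_tor2 : Tendsto (fun n : ℕ => (tor 2 hw 0 : GG k 2) ^ n) atTop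
    (cocompact (GG k 2)) :=
  tendsto_tor_zero 2 (by norm_num) hw hw1

theorem tendsto_tor2_inv : Tendsto (fun n : ℕ => ((tor 2 hw 0 : GG k 2)⁻¹) ^ n) atTop
    (cocompact (GG k 2)) :=
  tendsto_inv_pow_of (tendsto_tor2 hw hw1)

theorem moore_tor : Moore (Ctr (tor 2 hw 0 : GG k 2)) := by
  have h := moore_ctr (norm_lt hw hw1)
  rw [← tor_eq_bw] at h
  exact h

theorem moore_tor' : Moore (Ctr' (tor 2 hw 0 : GG k 2)) := by
  have h := moore_ctr' (norm_lt hw hw1)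
  rw [← tor_eq_bw] at h
  exact h

theorem closure_tor : Subgroup.closure (Ctr (tor 2 hw 0 : GG k 2) ∪ Ctr' (tor 2 hw 0 : GG k 2) ∪
    {g | Commute (tor 2 hw 0 : GG k 2) g}) = ⊤ := by
  have h := closure_ctr (norm_lt hw hw1)
  rw [← tor_eq_bw] at h
  exact h

theorem moore_tor_inv : Moore (Ctr ((tor 2 hw 0 : GG k 2)⁻¹)) := by
  rw [ctr_inv]; exact moore_tor' hw hw1

theorem moore_tor_inv' : Moore (Ctr' ((tor 2 hw 0 : GG k 2)⁻¹)) := by
  rw [ctr'_inv]; exact moore_tor hw hw1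

theorem closure_tor_inv : Subgroup.closure (Ctr ((tor 2 hw 0 : GG k 2)⁻¹) ∪
    Ctr' ((tor 2 hw 0 : GG k 2)⁻¹) ∪ {g | Commute ((tor 2 hw 0 : GG k 2)⁻¹) g}) = ⊤ := by
  rw [ctr_inv, ctr'_inv, Set.union_comm (Ctr' (tor 2 hw 0 : GG k 2))]
  have h1 : {g : GG k 2 | Commute ((tor 2 hw 0 : GG k 2)⁻¹) g} =
      {g | Commute (tor 2 hw 0 : GG k 2) g} := by
    ext g
    exact Commute.inv_left_iff
  rw [h1]
  exact closure_tor hw hw1

end Vale.Agent.P092.H541
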