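import Vale.Agent.P092.H776.Row
import Vale.Agent.P092.H933.LocF
import Vale.Agent.P092.H575.Geo4
import Vale.Agent.P092.H43.Loc2
import Vale.Agent.P092.H43.Slow
import Vale.Agent.P092.H357.Sep3
import Vale.Agent.P092.H43.LocUse
import Vale.Agent.P092.H21.InstB
import Vale.Agent.P092.H541.BwE

/-!
P092 (helper541), team C, [A-DIS]: the row model for an arbitrary target with two gauges:
near-wall mass `nrm_gs` for any system of gauges with two gaps (so any local field), the instance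
for ultrametric targets, and the other inputs of the engine (`Slow`, `Loc2`, `Esc`, `Sym`, `Leg`).
-/

set_option linter.all false

open scoped InnerProductSpace ENNReal
open Matrix Filter Topology MeasureTheory ContinuousLinearMap

namespace Vale.Agent.P092.H541

open Vale.Agent.P092.H160 Vale.Agent.P092.H432 Vale.Agent.P092.H132
open Vale.Agent.P092.H538 (ind ind_pos ind_neg ind_nonneg abs_ind_le fst)
open Vale.Agent.P092.H790 (CData Ri baseL lxt)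
open Vale.Agent.P092.H21 (msL mL)
open Vale.Agent.P092.H357 (BdL2 B2)
open Vale.Agent.P092.H761 (SharpData GChain big mem_big Geo Gaps CovFam)
open Vale.Agent.P092.H515 (GSys start2)
open Vale.Agent.P092.H859.CL
open Vale.Agent.P092.H701 (HChain tor dg)
open Vale.Agent.P092.H85 (cdat)
open Vale.Agent.P092.SD (G3 bw tau nm)

/-! ### (r1) near-wall mass -/

section abs

variable {Γ 𝔾 : Type} [Group Γ] [DecidableEq Γ] [Group 𝔾] {t : ℝ}
  {mass : 𝔾 → (Γ → ℝ) → ℝ} {Cpt : Set 𝔾 → Prop} {Ping : (p : ℕ) → (Fin p → 𝔾) → Prop}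
  {m : ℕ} {b : Fin m → ℕ → 𝔾} {𝒦 : Fin m → Set 𝔾}

/-- **Near-wall**, any system of two gauges: along the first direction of a chain of length
`≥ 2`, the mass of the elements with two large gaps is small. -/
theorem nw_gs (h : SharpData t mass Cpt Ping) (hch : GChain Cpt Ping m b 𝒦) (hm : 0 < m)
    (h2 : 2 ≤ m) {gp : Fin 2 → Γ → ℝ} {wt : Γ → ℝ} (hs : GSys gp wt)
    (fin : ∀ R : ℝ, {g | wt g ≤ R}.Finite) {ε : ℝ} (hε : 0 < ε) :
    ∃ R : ℝ, ∀ N, mass (b ⟨0, hm⟩ N) (ind fun g => g ∈ BB (gp 0) (gp 1) R) ≤ ε := by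
  classical
  have hg := hs.gaps fin (fun j : Fin 2 => j)
    (fun R => ⟨R, fun i j hij g hg => by rw [← hij]; exact hg⟩)
  obtain ⟨R, hR⟩ := start2 h hg (fun θ _ _ => hs.geo' fin θ) hch h2 hm hε
  refine ⟨R, fun N => (h.ind_mono _ (P := fun g => g ∈ BB (gp 0) (gp 1) R) ?_).trans (hR N)⟩
  rintro g ⟨h1, h2⟩
  exact Finset.one_lt_card.2 ⟨0, mem_big.2 ⟨_, rfl, h1.le⟩, 1, mem_big.2 ⟨_, rfl, h2.le⟩,
    by decide⟩

end abs

section nrm

variable {E : Type} [Group E] [TopologicalSpace E] [IsTopologicalGroup E] [LocallyCompactSpace E]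
  [SecondCountableTopology E] [T2Space E] [MeasurableSpace E] [BorelSpace E]
  (Λ : Subgroup E) [DiscreteTopology Λ] [MeasurableSpace (E ⧸ Λ)] [BorelSpace (E ⧸ Λ)]
  (ν : Measure (E ⧸ Λ)) [IsProbabilityMeasure ν] (hν : ∀ g : E, ν.map (fun x => g • x) = ν)
  {Γ Q ι : Type} [Group Γ] [Countable Γ] [Group Q] [Countable Q] [Fintype ι] {t : ℝ}
  {R : Λ → (Ell2 ((Γ × Q) × ι) →L[ℂ] Ell2 ((Γ × Q) × ι))}
  {E0 : Set Λ → (Ell2 ((Γ × Q) × ι) →L[ℂ] Ell2 ((Γ × Q) × ι))}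

/-- `nrm` along one direction. -/
theorem nrm_gs_chain (hR : ARep t R) (hE : CovFam R E0)
    (hq : ∀ A (q : Q), E0 A * lx ((1 : Γ), q) = lx ((1 : Γ), q) * E0 A)
    {m : ℕ} (C : HChain E m) (hm : 0 < m) (h2 : 2 ≤ m) {gp : Fin 2 → Γ → ℝ} {wt : Γ → ℝ}
    (hs : GSys gp wt) (fin : ∀ R : ℝ, {g | wt g ≤ R}.Finite) {ε : ℝ} (hε : 0 < ε) :
    ∃ r : ℝ, ∀ N, massX (fst (baseL (cdat ν hν).μ (Γ × Q) ι)) (Ri (cdat ν hν) R)
      (C.b ⟨0, hm⟩ N) (ind fun γ => γ ∈ BB (gp 0) (gp 1) r) ≤ ε := by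
  classical
  exact nw_gs (H761.sharpCoef Λ ν hν hR hE hq) (H261.gchain_of_hchain C) hm h2 hs fin hε

/-- **`nrm`** for the group generated by the wall element `b`. -/
theorem nrm_gs_zpowers (hR : ARep t R) (hE : CovFam R E0)
    (hq : ∀ A (q : Q), E0 A * lx ((1 : Γ), q) = lx ((1 : Γ), q) * E0 A)
    {m : ℕ} (C C' : HChain E m) (hm : 0 < m) (h2 : 2 ≤ m) {b : E}
    (hC : ∀ N, C.b ⟨0, hm⟩ N = b ^ N) (hC' : ∀ N, C'.b ⟨0, hm⟩ N = b⁻¹ ^ N)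
    {gp : Fin 2 → Γ → ℝ} {wt : Γ → ℝ} (hs : GSys gp wt) (fin : ∀ R : ℝ, {g | wt g ≤ R}.Finite)
    {ε : ℝ} (hε : 0 < ε) : ∃ r : ℝ, ∀ u ∈ Subgroup.zpowers b,
      massX (fst (baseL (cdat ν hν).μ (Γ × Q) ι)) (Ri (cdat ν hν) R)
        u (ind fun γ => γ ∈ BB (gp 0) (gp 1) r) ≤ ε := by
  classical
  have hd := H761.sharpCoef Λ ν hν hR hE hq
  obtain ⟨r, hr⟩ := nrm_gs_chain Λ ν hν hR hE hq C hm h2 hs fin hε
  obtain ⟨r', hr'⟩ := nrm_gs_chain Λ ν hν hR hE hq C' hm h2 hs fin hε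
  have mono : ∀ (r₁ r₂ : ℝ) (u : E), r₁ ≤ r₂ →
      massX (fst (baseL (cdat ν hν).μ (Γ × Q) ι)) (Ri (cdat ν hν) R)
        u (ind fun γ => γ ∈ BB (gp 0) (gp 1) r₂) ≤
      massX (fst (baseL (cdat ν hν).μ (Γ × Q) ι)) (Ri (cdat ν hν) R)
        u (ind fun γ => γ ∈ BB (gp 0) (gp 1) r₁) := fun r₁ r₂ u h =>
    hd.ind_mono u (P := fun γ => γ ∈ BB (gp 0) (gp 1) r₂)
      (Q := fun γ => γ ∈ BB (gp 0) (gp 1) r₁) fun γ hγ => BB_mono h hγ
  refine ⟨max r r', ?_⟩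
  rintro _ ⟨z, rfl⟩
  obtain ⟨N, rfl | rfl⟩ := z.eq_nat_or_neg
  · have h0 := hr N
    rw [hC] at h0
    have h1 := (mono _ _ (b ^ N) (le_max_left r r')).trans h0
    simpa using h1
  · have h0 := hr' N
    rw [hC'] at h0
    have h1 := (mono _ _ (b⁻¹ ^ N) (le_max_right r r')).trans h0
    simpa using h1

end nrm

/-! ### The gauges of an ultrametric target -/

section ultra

variable {k : Type} [NontriviallyNormedField k] [ProperSpace k] [IsUltrametricDist k]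
  {Γ : Type} [Group Γ]

/-- the gaps of `q γ` -/
noncomputable def gpu (q : Γ →* G3 k) (j : Fin 2) (γ : Γ) : ℝ := H933.gap (j : ℕ) (q γ).1

theorem gsys_ultra (q : Γ →* G3 k) : GSys (gpu q) (fun γ => H933.sz (q γ).1) := by
  have hE : H933.PEmb fun g => (q g : Matrix (Fin 3) (Fin 3) k) := by
    refine ⟨fun a b => ⟨1, one_ne_zero, ?_⟩, fun g => ?_⟩
    · rw [map_mul, one_smul]
      exact Matrix.SpecialLinearGroup.coe_mul (q a) (q b)
    · rw [(q g).det_coe]; exact one_ne_zero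
  have hP := H933.place (by norm_num) hE (Fin.valEmbedding : Fin 2 ↪ ℕ) (R0 := 0)
    fun l hl hj => absurd rfl (hj ⟨l, by omega⟩)
  exact H515.place_gsys hP

theorem sz_eq_nm (g : G3 k) : H933.sz g.1 = nm g := by
  have h1 : H933.sz g.1 = H933.nr g.1 := by
    unfold H933.sz H933.nu
    rw [g.det_coe, norm_one, Real.one_rpow, div_one]
  rw [h1]
  refine le_antisymm (H933.nr_le (norm_nonneg _) fun i j => ?_) ?_
  · exact (norm_le_pi_norm (g.1 i) j).trans (norm_le_pi_norm (fun i j => g.1 i j) i)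
  · refine (pi_norm_le_iff_of_nonneg (H933.nr_nonneg _)).2 fun i => ?_
    exact (pi_norm_le_iff_of_nonneg (H933.nr_nonneg _)).2 fun j => H933.entry_le_nr _ i j

theorem fin_ultra {q : Γ →* G3 k} (hfin : ∀ C, {γ | nm (q γ) ≤ C}.Finite) (R : ℝ) :
    {g | H933.sz (q g).1 ≤ R}.Finite :=
  (hfin R).subset fun g hg => by
    rw [Set.mem_setOf_eq, ← sz_eq_nm]
    exact hg

end ultra

/-! ### (r2) bounded vectors -/

section bd

variable {X : Type} [MeasurableSpace X] {μ : Measure X} {Γ Q ι : Type} [Group Γ] [Group Q]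

theorem bfl_sub : H43.BfL μ (Γ × Q) ι ⊆ BdL2 μ Γ Q ι := by
  intro ξ hξ
  have h : ∀ᵐ x ∂μ, H43.LB (ξ x : Ell2 ((Γ × Q) × ι)) := hξ
  have h2 : ∀ᵐ x ∂μ, B2 (ξ x : Ell2 ((Γ × Q) × ι)) := by
    filter_upwards [h] with x hx
    exact hx.b2
  exact h2

theorem bdl2_le : ∀ ζ ∈ BdL2 μ Γ Q ι, ∀ᵐ x ∂μ, ‖(ζ x : Ell2 ((Γ × Q) × ι))‖ ≤ 1 := by
  intro ζ hζ
  have h : ∀ᵐ x ∂μ, B2 (ζ x : Ell2 ((Γ × Q) × ι)) := hζ
  filter_upwards [h] with x hx
  exact hx.norm_le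

end bd

/-! ### (r3) all inputs of the engine -/

/-- The inputs of the engine along `b` and `b⁻¹`. -/
structure RowIn {Γ D K : Type} [Group Γ] [Group D] [TopologicalSpace D] [NormedAddCommGroup K]
    [InnerProductSpace ℂ K] [CompleteSpace K] (mp : (Γ → ℝ) → (K →L[ℂ] K)) (R : D → (K →L[ℂ] K))
    (Bd Bf : Set K) (ms : D → Set Γ → ℝ) (lam : Γ → (K →L[ℂ] K)) (W : Set (K →L[ℂ] K)) (Ω : K)
    (b : D) (G1 G2 : Γ → ℝ) : Prop where
  sys : SysF mp R Bd ms (Subgroup.zpowers b) G1 G2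
  ffin : ∀ r, (FF G1 G2 r).Finite
  leg : Leg mp R lam W
  slow : Slow mp R Bd
  loc : H43.Loc2 mp R Bd Bf
  esc : Esc (st mp) R Bd (Subgroup.zpowers b) (pw b)
  esc' : Esc (st mp) R Bd (Subgroup.zpowers b) (pw b⁻¹)
  lu : LU1 mp R G1 G2 (pw b)
  lu' : LU1 mp R G1 G2 (pw b⁻¹)
  sym : Sym mp R Ω

section row

variable {E : Type} [Group E] [TopologicalSpace E] [IsTopologicalGroup E] [LocallyCompactSpace E]
  [SecondCountableTopology E] [T2Space E] [MeasurableSpace E] [BorelSpace E]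
  (Λ : Subgroup E) [DiscreteTopology Λ] [MeasurableSpace (E ⧸ Λ)] [BorelSpace (E ⧸ Λ)]
  (ν : Measure (E ⧸ Λ)) [IsProbabilityMeasure ν] (hν : ∀ g : E, ν.map (fun x => g • x) = ν)
  {Γ Q : Type} [Group Γ] [Countable Γ] [Group Q] [Countable Q]

section gen

variable {ι : Type} [Fintype ι] {t : ℝ} {R : Λ → (Ell2 ((Γ × Q) × ι) →L[ℂ] Ell2 ((Γ × Q) × ι))}
  {E0 : Set Λ → (Ell2 ((Γ × Q) × ι) →L[ℂ] Ell2 ((Γ × Q) × ι))}

/-- `SysF` for a target with two gauges and any source with two chains. -/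
theorem sysF_gs (hR : ARep t R) (hE : CovFam R E0)
    (hq : ∀ A (q : Q), E0 A * lx ((1 : Γ), q) = lx ((1 : Γ), q) * E0 A)
    {m : ℕ} (C C' : HChain E m) (hm : 0 < m) (h2 : 2 ≤ m) {b : E}
    (hC : ∀ N, C.b ⟨0, hm⟩ N = b ^ N) (hC' : ∀ N, C'.b ⟨0, hm⟩ N = b⁻¹ ^ N)
    {gp : Fin 2 → Γ → ℝ} {wt : Γ → ℝ} (hs : GSys gp wt) (fin : ∀ R : ℝ, {g | wt g ≤ R}.Finite) :
    SysF (fst (baseL (cdat ν hν).μ (Γ × Q) ι)).mp (Ri (cdat ν hν) R)
      (BdL2 (cdat ν hν).μ Γ Q ι) (msL (cdat ν hν) R) (Subgroup.zpowers b) (gp 0) (gp 1) := by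
  have : Countable Λ := H790.countable_of_discrete Λ
  exact H21.sysF_nrm (cdat ν hν) hR (fun s u => by
    obtain ⟨c, hc⟩ := hs.quasi s u
    exact ⟨c, fun x => ⟨hc 0 x, hc 1 x⟩⟩)
    fun ε hε => nrm_gs_zpowers Λ ν hν hR hE hq C C' hm h2 hC hC' hs fin hε

theorem ff_fin {gp : Fin 2 → Γ → ℝ} {wt : Γ → ℝ} (hs : GSys gp wt)
    (fin : ∀ R : ℝ, {g | wt g ≤ R}.Finite) (r : ℝ) : (FF (gp 0) (gp 1) r).Finite := by
  refine (hs.gap_finite fin r).subset fun g hg j => ?_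
  fin_cases j
  · exact hg.1
  · exact hg.2

end gen

section unit

variable {R : Λ → (Ell2 ((Γ × Q) × Unit) →L[ℂ] Ell2 ((Γ × Q) × Unit))}
  {E0 : Set Λ → (Ell2 ((Γ × Q) × Unit) →L[ℂ] Ell2 ((Γ × Q) × Unit))}

/-- **All inputs of the engine on the row model.** -/
theorem row_all (hR : ARep 1 R) (h1 : R 1 = 1) (hE : CovFam R E0)
    (hq : ∀ A (q : Q), E0 A * lx ((1 : Γ), q) = lx ((1 : Γ), q) * E0 A)
    {m : ℕ} (C C' : HChain E m) (hm : 0 < m) (h2 : 2 ≤ m) {b : E}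
    (hC : ∀ N, C.b ⟨0, hm⟩ N = b ^ N) (hC' : ∀ N, C'.b ⟨0, hm⟩ N = b⁻¹ ^ N)
    (hb : Tendsto (fun n : ℕ => b ^ n) atTop (cocompact E))
    {gp : Fin 2 → Γ → ℝ} {wt : Γ → ℝ} (hs : GSys gp wt) (fin : ∀ R : ℝ, {g | wt g ≤ R}.Finite) :
    RowIn (fst (baseL (cdat ν hν).μ (Γ × Q) Unit)).mp (Ri (cdat ν hν) R)
      (BdL2 (cdat ν hν).μ Γ Q Unit) (H43.BfL (cdat ν hν).μ (Γ × Q) Unit) (msL (cdat ν hν) R)
      (fun γ : Γ => lxt (cdat ν hν).μ (γ, (1 : Q))) (H776.Leg1.WL (cdat ν hν) Γ Q Unit)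
      (H790.ept (cdat ν hν).μ ()) b (gp 0) (gp 1) := by
  have : Countable Λ := H790.countable_of_discrete Λ
  have hS := sysF_gs Λ ν hν hR hE hq C C' hm h2 hC hC' hs fin
  have hL : H43.Loc2 (fun F => (fst (baseL (cdat ν hν).μ (Γ × Q) Unit)).mp F) (Ri (cdat ν hν) R)
      (BdL2 (cdat ν hν).μ Γ Q Unit) (H43.BfL (cdat ν hν).μ (Γ × Q) Unit) :=
    H43.loc2 (cdat ν hν) hR bfl_sub
  have he := esc_pow Λ ν hν hR hE hq hb (BdL2 (cdat ν hν).μ Γ Q Unit)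
  have he' := esc_pow_inv Λ ν hν hR hE hq hb (BdL2 (cdat ν hν).μ Γ Q Unit)
  exact
    { sys := hS
      ffin := ff_fin hs fin
      leg := H776.Leg1.leg_row (cdat ν hν) hR h1
      slow := H43.slow (cdat ν hν) (H43.ccont_cdat ν hν) hR.opNorm_le h1 bdl2_le
      loc := hL
      esc := he
      esc' := he'
      lu := H43.lu1 hS hL (ff_fin hs fin) he
      lu' := H43.lu1 hS hL (ff_fin hs fin) he'
      sym := fun u P => H357.sym_one (H538.trep_fst (H790.trep (cdat ν hν) hR)) u P }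

end unit

end row

/-! ### The source `SL_3` of a local field -/

section source

variable {k : Type} [NontriviallyNormedField k] [ProperSpace k] [LocallyCompactSpace (G3 k)]
  [SecondCountableTopology (G3 k)] [MeasurableSpace (G3 k)] [BorelSpace (G3 k)]
  (Λ : Subgroup (G3 k)) [DiscreteTopology Λ] [MeasurableSpace (G3 k ⧸ Λ)] [BorelSpace (G3 k ⧸ Λ)]
  (ν : Measure (G3 k ⧸ Λ)) [IsProbabilityMeasure ν]
  (hν : ∀ g : G3 k, ν.map (fun x => g • x) = ν)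
  {Γ Q : Type} [Group Γ] [Countable Γ] [Group Q] [Countable Q]
  {R : Λ → (Ell2 ((Γ × Q) × Unit) →L[ℂ] Ell2 ((Γ × Q) × Unit))}
  {E0 : Set Λ → (Ell2 ((Γ × Q) × Unit) →L[ℂ] Ell2 ((Γ × Q) × Unit))}

/-- **All inputs, source `SL_3(k)`, `b = (bw w)⁻¹`, any target with two gauges.** -/
theorem row_bw (hR : ARep 1 R) (h1 : R 1 = 1) (hE : CovFam R E0)
    (hq : ∀ A (q : Q), E0 A * lx ((1 : Γ), q) = lx ((1 : Γ), q) * E0 A)
    {w : kˣ} (hw : ‖(w : k)‖ < 1)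
    {gp : Fin 2 → Γ → ℝ} {wt : Γ → ℝ} (hs : GSys gp wt) (fin : ∀ R : ℝ, {g | wt g ≤ R}.Finite) :
    RowIn (fst (baseL (cdat ν hν).μ (Γ × Q) Unit)).mp (Ri (cdat ν hν) R)
      (BdL2 (cdat ν hν).μ Γ Q Unit) (H43.BfL (cdat ν hν).μ (Γ × Q) Unit) (msL (cdat ν hν) R)
      (fun γ : Γ => lxt (cdat ν hν).μ (γ, (1 : Q))) (H776.Leg1.WL (cdat ν hν) Γ Q Unit)
      (H790.ept (cdat ν hν).μ ()) ((bw w : G3 k)⁻¹) (gp 0) (gp 1) := by
  have hw' : 1 < ‖((w⁻¹ : kˣ) : k)‖ := by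
    rw [Units.val_inv_eq_inv_val, norm_inv]
    exact one_lt_inv_iff₀.2 ⟨norm_pos_iff.2 w.ne_zero, hw⟩
  refine row_all Λ ν hν hR h1 hE hq (H776.NW.chWInv 2 hw' (Units.ne_zero _))
    (H776.NW.chW 2 hw' (Units.ne_zero _)) (by norm_num) le_rfl (fun N => ?_) (fun N => ?_)
    (tendsto_bw_inv hw) hs fin
  · rw [H776.NW.bw_eq_tor]
    exact H776.NW.chWInv_b 2 hw' _ (by norm_num) N
  · rw [inv_inv, H776.NW.bw_eq_tor]
    exact H776.NW.chW_b 2 hw' _ (by norm_num) N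

/-- **All inputs, source `SL_3(k)`, ultrametric target.** -/
theorem row_ultra {k' : Type} [NontriviallyNormedField k'] [ProperSpace k'] [IsUltrametricDist k']
    (hR : ARep 1 R) (h1 : R 1 = 1) (hE : CovFam R E0)
    (hq : ∀ A (q : Q), E0 A * lx ((1 : Γ), q) = lx ((1 : Γ), q) * E0 A)
    {w : kˣ} (hw : ‖(w : k)‖ < 1) (q : Γ →* G3 k') (hfin : ∀ C, {γ | nm (q γ) ≤ C}.Finite) :
    RowIn (fst (baseL (cdat ν hν).μ (Γ × Q) Unit)).mp (Ri (cdat ν hν) R)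
      (BdL2 (cdat ν hν).μ Γ Q Unit) (H43.BfL (cdat ν hν).μ (Γ × Q) Unit) (msL (cdat ν hν) R)
      (fun γ : Γ => lxt (cdat ν hν).μ (γ, (1 : Q))) (H776.Leg1.WL (cdat ν hν) Γ Q Unit)
      (H790.ept (cdat ν hν).μ ()) ((bw w : G3 k)⁻¹) (fun γ => H933.gap 0 (q γ).1)
      (fun γ => H933.gap 1 (q γ).1) :=
  row_bw Λ ν hν hR h1 hE hq hw (gsys_ultra q) (fin_ultra hfin)

end source

end Vale.Agent.P092.H541
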