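import Vale.Agent.P092.H701.SLn

/-!
P092 (helper541), team D: the chain of `SL_{n+1}(k)` whose first direction is the INVERSE of the wall
element `tor 0 = diag (w ^ n, w⁻¹, …, w⁻¹)`.
-/

set_option linter.all false

open Filter Topology Matrix

namespace Vale.Agent.P092.H541

open Vale.Agent.P092.H701

variable {k : Type*} [NontriviallyNormedField k]

theorem tor_inv_pow_row (n : ℕ) {w : k} (hw : w ≠ 0) (j i : Fin (n + 1)) (N : ℕ)
    (x : SpecialLinearGroup (Fin (n + 1)) k) :
    ((tor n hw j)⁻¹ ^ N * x).1 i = ((dg n w j i)⁻¹) ^ N • x.1 i := by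
  have hd : dg n w j i ≠ 0 := by
    unfold dg
    refine mul_ne_zero ?_ ?_
    · split_ifs
      · exact pow_ne_zero _ hw
      · exact one_ne_zero
    · split_ifs
      · exact inv_ne_zero hw
      · exact one_ne_zero
  have h := tor_pow_row n hw j i N ((tor n hw j)⁻¹ ^ N * x)
  rw [← mul_assoc, inv_pow, mul_inv_cancel, one_mul] at h
  rw [inv_pow, inv_pow, h, smul_smul, inv_mul_cancel₀ (pow_ne_zero _ hd), one_smul]

/-- `SL_{n+1}(k)`, `n ≥ 1`, has a chain of length `n` with the inverse of the first direction of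
`slChain`; the other directions are those of `slChain`. -/
noncomputable def slChainInv (k : Type*) [NontriviallyNormedField k] [ProperSpace k] (n : ℕ)
    [MeasurableSpace (SpecialLinearGroup (Fin (n + 1)) k)]
    [OpensMeasurableSpace (SpecialLinearGroup (Fin (n + 1)) k)] :
    HChain (SpecialLinearGroup (Fin (n + 1)) k) n :=
  let w : k := (NormedField.exists_one_lt_norm k).choose
  have hw1 : 1 < ‖w‖ := (NormedField.exists_one_lt_norm k).choose_spec
  have hw : w ≠ 0 := norm_pos_iff.mp (lt_trans one_pos hw1)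
  { b := fun j N => if (j : ℕ) = 0 then (tor n hw j.castSucc)⁻¹ ^ N else tor n hw j.castSucc ^ N
    K := fun j => if (j : ℕ) = 0 then
        (slRow (k := k) (Fin.castSucc_lt_succ (i := j)).ne').K
      else (slRow (k := k) (Fin.castSucc_lt_succ (i := j)).ne).K
    compact := fun j => by
      split_ifs
      · exact RowPair.isCompact_K _
      · exact RowPair.isCompact_K _
    comm_b := fun i j _ N M => by
      have h := tor_comm n hw i.castSucc j.castSucc
      split_ifs
      · exact (h.inv_inv).pow_pow N M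
      · exact (h.inv_left).pow_pow N M
      · exact (h.inv_right).pow_pow N M
      · exact h.pow_pow N M
    comm_K := by
      intro i j hij N x hx
      have h1 : i.castSucc < j.castSucc := hij
      have h2 : i.castSucc < j.succ := h1.trans (Fin.castSucc_lt_succ (i := j))
      have e : dg n w i.castSucc j.castSucc = dg n w i.castSucc j.succ := by
        rw [dg_gt n w h1, dg_gt n w h2]
      have h3 : (j.castSucc : Fin (n + 1)) ≠ j.succ := (Fin.castSucc_lt_succ (i := j)).ne
      have hj : (j : ℕ) ≠ 0 := by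
        have : (i : ℕ) < (j : ℕ) := hij
        omega
      rw [if_neg hj] at hx
      have hc : Commute (tor n hw i.castSucc) x := by
        rcases hx with ⟨t, -, rfl⟩ | ⟨t, -, rfl⟩
        · exact tor_elem n hw i.castSucc h3 e t
        · exact tor_elem n hw i.castSucc h3.symm e.symm t
      split_ifs
      · exact (hc.inv_left).pow_left N
      · exact hc.pow_left N
    pp := by
      intro j p
      by_cases hj : (j : ℕ) = 0
      · simp only [if_pos hj]
        refine RowPair.pp (slRow (k := k) (Fin.castSucc_lt_succ (i := j)).ne')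
          (fun N => (tor n hw j.castSucc)⁻¹ ^ N)
          (fun N => ((dg n w j.castSucc j.succ)⁻¹) ^ N)
          (fun N => ((dg n w j.castSucc j.castSucc)⁻¹) ^ N)
          (fun N x => tor_inv_pow_row n hw _ _ N x) (fun N x => tor_inv_pow_row n hw _ _ N x) ?_ ?_ p
        · intro N
          rw [dg_gt n w (Fin.castSucc_lt_succ (i := j)), inv_inv]
          exact pow_ne_zero _ hw
        · intro C
          obtain ⟨N₀, hN₀⟩ := pow_unbounded_of_one_lt C hw1
          refine ⟨N₀, fun N hN => ?_⟩
          rw [dg_self, dg_gt n w (Fin.castSucc_lt_succ (i := j)), inv_inv, norm_pow, norm_pow,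
            norm_inv, norm_pow, Fin.val_castSucc]
          have h1 : C ≤ ‖w‖ ^ N := hN₀.le.trans (pow_le_pow_right₀ hw1.le hN)
          have h2 : ((‖w‖ ^ (n - (j : ℕ)))⁻¹) ^ N ≤ 1 := by
            refine pow_le_one₀ (by positivity) (inv_le_one_of_one_le₀ ?_)
            exact one_le_pow₀ hw1.le
          have h4 : (0 : ℝ) ≤ ((‖w‖ ^ (n - (j : ℕ)))⁻¹) ^ N := by positivity
          have h5 : (0 : ℝ) ≤ ‖w‖ ^ N := by positivity
          calc C * ((‖w‖ ^ (n - (j : ℕ)))⁻¹) ^ N ≤ ‖w‖ ^ N * ((‖w‖ ^ (n - (j : ℕ)))⁻¹) ^ N :=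
                mul_le_mul_of_nonneg_right h1 h4
            _ ≤ ‖w‖ ^ N * 1 := mul_le_mul_of_nonneg_left h2 h5
            _ = _ := mul_one _
      · simp only [if_neg hj]
        exact (slChain k n).pp j p }

theorem slChainInv_zero (k : Type*) [NontriviallyNormedField k] [ProperSpace k] (n : ℕ)
    [MeasurableSpace (SpecialLinearGroup (Fin (n + 1)) k)]
    [OpensMeasurableSpace (SpecialLinearGroup (Fin (n + 1)) k)] (j : Fin n) (hj : (j : ℕ) = 0)
    (N : ℕ) : (slChainInv k n).b j N = ((slChain k n).b j N)⁻¹ := by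
  show (if (j : ℕ) = 0 then _ else _) = _
  rw [if_pos hj, inv_pow]
  rfl

end Vale.Agent.P092.H541
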