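import Vale.Agent.P092.H839.Tri

/-!
P092 (helper541), team D, block D0-NW, escape: the first leg of the comultiplication leaves every
finite dimensional subspace (tensor the second leg).
-/

set_option linter.all false

open scoped InnerProductSpace
open Filter Topology ContinuousLinearMap

namespace Vale.Agent.P092.H541

open Vale.Agent.P092.H160 Vale.Agent.P092.SR Vale.Agent.P092.H839

section gen

/-- The vectors on which a bounded family of operators tends to zero form a closed subspace. -/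
theorem tend_all {ι E F : Type} [NormedAddCommGroup E] [InnerProductSpace ℂ E]
    [NormedAddCommGroup F] [InnerProductSpace ℂ F] {l : Filter ι} {f : ι → (E →L[ℂ] F)} {C : ℝ}
    (hC : ∀ i, ‖f i‖ ≤ C) {Bd : Set E}
    (hB : ∀ ξ : E, ∀ ε : ℝ, 0 < ε → ∃ η ∈ Submodule.span ℂ Bd, ‖ξ - η‖ ≤ ε)
    (h : ∀ ξ ∈ Bd, Tendsto (fun i => ‖f i ξ‖) l (𝓝 0)) (ξ : E) :
    Tendsto (fun i => ‖f i ξ‖) l (𝓝 0) := by
  rcases isEmpty_or_nonempty ι with hι | ⟨⟨i0⟩⟩
  · have : l = ⊥ := Filter.filter_eq_bot_of_isEmpty l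
    rw [this]; exact tendsto_bot
  have hC0 : 0 ≤ C := (norm_nonneg _).trans (hC i0)
  have h1 : ∀ y ∈ Submodule.span ℂ Bd, Tendsto (fun i => ‖f i y‖) l (𝓝 0) := by
    intro y hy
    induction hy using Submodule.span_induction with
    | mem x hx => exact h x hx
    | zero => simp only [map_zero, norm_zero]; exact tendsto_const_nhds
    | add x y _ _ hx hy =>
      have := hx.add hy
      rw [add_zero] at this
      refine squeeze_zero (fun i => norm_nonneg _) (fun i => ?_) this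
      rw [map_add]
      exact norm_add_le _ _
    | smul c x _ hx =>
      have := hx.const_mul ‖c‖
      rw [mul_zero] at this
      refine this.congr fun i => ?_
      rw [map_smul, norm_smul]
  rw [Metric.tendsto_nhds]
  intro ε hε
  obtain ⟨y, hy, hd⟩ := hB ξ (ε / (2 * (C + 1))) (by positivity)
  filter_upwards [(Metric.tendsto_nhds.mp (h1 y hy)) (ε / 2) (by positivity)] with i hi
  rw [dist_zero_right, norm_norm] at hi ⊢
  have h2 : f i ξ = f i (ξ - y) + f i y := by rw [← map_add, sub_add_cancel]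
  rw [h2]
  have h3 : ‖f i (ξ - y)‖ ≤ ε / 2 := by
    calc _ ≤ ‖f i‖ * ‖ξ - y‖ := (f i).le_opNorm _
      _ ≤ (C + 1) * (ε / (2 * (C + 1))) := by
          have := hC i
          gcongr
          linarith
      _ = ε / 2 := by field_simp
  calc _ ≤ ‖f i (ξ - y)‖ + ‖f i y‖ := norm_add_le _ _
    _ < ε := by linarith

end gen

/-- Parseval for a regular representation, in squares. -/
theorem parseval {G E : Type} [Group G] [NormedAddCommGroup E] [InnerProductSpace ℂ E]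
    [CompleteSpace E] {π : G →* (E →L[ℂ] E)} {ω : E} (h : RegRep π ω) (η : E) :
    HasSum (fun p : G => ‖⟪π p ω, η⟫_ℂ‖ ^ 2) (‖η‖ ^ 2) := by
  have h1 := h.hasSum_inner η η
  have h3 := Complex.hasSum_re h1
  have h4 : (⟪η, η⟫_ℂ).re = ‖η‖ ^ 2 := by
    rw [inner_self_eq_norm_sq_to_K]; norm_cast
  rw [h4] at h3
  have h5 : (fun p : G => ‖⟪π p ω, η⟫_ℂ‖ ^ 2) =
      fun p => (⟪η, π p ω⟫_ℂ * ⟪π p ω, η⟫_ℂ).re := by
    funext p
    rw [← inner_conj_symm η, ← Complex.normSq_eq_conj_mul_self, Complex.normSq_eq_norm_sq,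
      Complex.ofReal_re]
  rw [h5]; exact h3

section frame

variable {Γ Λ : Type} [Group Γ] [Group Λ] {α : Γ →* (Ell2 Λ →L[ℂ] Ell2 Λ)}

theorem dl_dense {X : Type} (ξ : Ell2 X) (ε : ℝ) (hε : 0 < ε) :
    ∃ η ∈ Submodule.span ℂ (Set.range (dl : X → Ell2 X)), ‖ξ - η‖ ≤ ε := by
  have h1 : (Submodule.span ℂ (Set.range (dl : X → Ell2 X))).topologicalClosure = ⊤ := by
    rw [Submodule.topologicalClosure_eq_top_iff, Submodule.eq_bot_iff]
    intro v hv
    refine eq_zero_of_inner_dl fun x => ?_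
    rw [← inner_dl]
    exact (Submodule.mem_orthogonal _ _).mp hv _ (Submodule.subset_span ⟨x, rfl⟩)
  have h2 : ξ ∈ closure ((Submodule.span ℂ (Set.range (dl : X → Ell2 X)) :
      Submodule ℂ (Ell2 X)) : Set (Ell2 X)) := by
    rw [← Submodule.topologicalClosure_coe, h1]; trivial
  obtain ⟨η, hη, hd⟩ := Metric.mem_closure_iff.mp h2 ε hε
  exact ⟨η, hη, by rw [← dist_eq_norm]; exact hd.le⟩

/-- Coefficients of `α v` vanish at infinity. -/
theorem coef_esc (hα : Frame α) (r s : Λ) :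
    Tendsto (fun v : Γ => ‖(α v (dl s)) r‖) cofinite (𝓝 0) := by
  have h1 : ∀ v, ‖(α v (dl s)) r‖ ^ 2 = ‖⟪α v (dl 1), rho s (dl r)⟫_ℂ‖ ^ 2 := by
    intro v
    have e1 : (dl s : Ell2 Λ) = rho s⁻¹ (dl 1) := by rw [rho_dl, inv_inv, one_mul]
    have e2 : α v (dl s) = rho s⁻¹ (α v (dl 1)) := by
      rw [e1, ← mul_ap, hα.comm, mul_ap]
    have e3 : (α v (dl s)) r = ⟪(dl r : Ell2 Λ), rho s⁻¹ (α v (dl 1))⟫_ℂ := by
      rw [inner_dl, e2]
    have e4 := (regRep_rho (G := Λ)).inner_left s (dl r) (α v (dl 1))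
    rw [rhoH_apply, rhoH_apply] at e4
    rw [e3, ← e4, ← inner_conj_symm, Complex.norm_conj]
  have h2 := (parseval hα.reg (rho s (dl r))).summable.tendsto_cofinite_zero
  have h3 := (Real.continuous_sqrt.tendsto 0).comp h2
  rw [Real.sqrt_zero] at h3
  refine h3.congr fun v => ?_
  change Real.sqrt (‖⟪α v (dl 1), rho s (dl r)⟫_ℂ‖ ^ 2) = _
  rw [← h1, Real.sqrt_sq (norm_nonneg _)]

theorem adj_tvr_dl {X Y : Type} (r : X) (ζ : Ell2 (X × Y)) :
    adjoint (tvr (dl r)) ζ = sl ζ r := by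
  refine ext_inner_dl fun b => ?_
  rw [← inner_dl, adjoint_inner_right, tvr_apply, ← dl_prod, inner_dl, sl_apply]

theorem norm_tvr_le {X Y : Type} (u : Ell2 X) : ‖(tvr u : Ell2 Y →L[ℂ] Ell2 (X × Y))‖ ≤ ‖u‖ :=
  ContinuousLinearMap.opNorm_le_bound _ (norm_nonneg _) fun v => by rw [tvr_apply, norm_tv]

theorem Del_dl' (x : Ell2 Λ →L[ℂ] Ell2 Λ) (s t r : Λ) :
    sl (Del x (dl (s, t))) r = (x (dl s)) r • dl (r * s⁻¹ * t) := by
  refine ext_inner_dl fun b => ?_
  rw [sl_apply, Del, mul_ap, mul_ap, rei_dl, rei_apply]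
  change tens x 1 (dl (s, s⁻¹ * t)) (r, r⁻¹ * b) = (x (dl s)) r * (dl (r * s⁻¹ * t) : Ell2 Λ) b
  rw [tens_dl, tv_apply]
  change x (dl s) r * (dl (s⁻¹ * t) : Ell2 Λ) (r⁻¹ * b) = _
  congr 1
  classical
  rw [dl_apply, dl_apply]
  have : (r⁻¹ * b = s⁻¹ * t) ↔ (b = r * s⁻¹ * t) := by
    rw [inv_mul_eq_iff_eq_mul, mul_assoc]
  simp only [this]

theorem norm_VV (hα : Frame α) (v : Γ) : ‖VV α v‖ ≤ 1 := by
  refine ContinuousLinearMap.opNorm_le_bound _ zero_le_one fun ξ => ?_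
  rw [one_mul]
  have h1 : ⟪VV α v ξ, VV α v ξ⟫_ℂ = ⟪ξ, ξ⟫_ℂ := by
    rw [← adjoint_inner_right, adj_VV hα, ← mul_ap, ← map_mul, inv_mul_cancel, map_one]
    rfl
  rw [inner_self_eq_norm_sq_to_K, inner_self_eq_norm_sq_to_K] at h1
  have h2 : ‖VV α v ξ‖ ^ 2 = ‖ξ‖ ^ 2 := by exact_mod_cast h1
  exact ((pow_left_inj₀ (norm_nonneg _) (norm_nonneg _) two_ne_zero).mp h2).le

/-- **Escape of the first leg** of `V v = Δ(α v)`. -/
theorem VV_esc (hα : Frame α) (a : Ell2 Λ) (η : Ell2 (Λ × Λ)) :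
    Tendsto (fun v => ‖adjoint (tvr a) (VV α v η)‖) cofinite (𝓝 0) := by
  -- basis vectors
  have h0 : ∀ (r : Λ) (ζ : Ell2 (Λ × Λ)),
      Tendsto (fun v => ‖adjoint (tvr (dl r)) (VV α v ζ)‖) cofinite (𝓝 0) := by
    intro r ζ
    refine tend_all (f := fun v => (adjoint (tvr (dl r)) ∘L VV α v :
      Ell2 (Λ × Λ) →L[ℂ] Ell2 Λ)) (C := 1) (fun v => ?_) dl_dense ?_ ζ
    · refine (opNorm_comp_le _ _).trans ?_
      refine mul_le_one₀ ?_ (norm_nonneg _) (norm_VV hα v)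
      rw [LinearIsometryEquiv.norm_map]
      exact (norm_tvr_le _).trans (norm_dl r).le
    · rintro _ ⟨⟨s, t⟩, rfl⟩
      refine (coef_esc hα r s).congr fun v => ?_
      rw [comp_apply, adj_tvr_dl]
      change _ = ‖sl (Del (α v) (dl (s, t))) r‖
      rw [Del_dl', norm_smul, norm_dl, mul_one]
  -- linear combinations
  have h1 : ∀ a ∈ Submodule.span ℂ (Set.range (dl : Λ → Ell2 Λ)),
      Tendsto (fun v => ‖adjoint (tvr a) (VV α v η)‖) cofinite (𝓝 0) := by
    intro a ha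
    induction ha using Submodule.span_induction with
    | mem x hx => obtain ⟨r, rfl⟩ := hx; exact h0 r η
    | zero =>
      have : (tvr (0 : Ell2 Λ) : Ell2 Λ →L[ℂ] Ell2 (Λ × Λ)) = 0 := by
        ext1 v; rw [tvr_apply, tv_zero_left]; rfl
      simp only [this, map_zero, zero_apply, norm_zero]
      exact tendsto_const_nhds
    | add x y _ _ hx hy =>
      have h2 := hx.add hy
      rw [add_zero] at h2
      refine squeeze_zero (fun i => norm_nonneg _) (fun i => ?_) h2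
      have : (tvr (x + y) : Ell2 Λ →L[ℂ] Ell2 (Λ × Λ)) = tvr x + tvr y := by
        ext1 v; rw [tvr_apply, tv_add_left]; rfl
      rw [this, map_add, add_apply]
      exact norm_add_le _ _
    | smul c x _ hx =>
      have h2 := hx.const_mul ‖c‖
      rw [mul_zero] at h2
      refine h2.congr fun i => ?_
      have : (tvr (c • x) : Ell2 Λ →L[ℂ] Ell2 (Λ × Λ)) = c • tvr x := by
        ext1 v; rw [tvr_apply, tv_smul_left]; rfl
      rw [this, map_smulₛₗ, smul_apply, norm_smul, RCLike.norm_conj]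
  rw [Metric.tendsto_nhds]
  intro ε hε
  obtain ⟨b, hb, hd⟩ := dl_dense a (ε / (2 * (‖η‖ + 1))) (by positivity)
  filter_upwards [(Metric.tendsto_nhds.mp (h1 b hb)) (ε / 2) (by positivity)] with v hv
  rw [dist_zero_right, norm_norm] at hv ⊢
  have h2 : (tvr a : Ell2 Λ →L[ℂ] Ell2 (Λ × Λ)) = tvr (a - b) + tvr b := by
    ext1 v
    change tv a v = tv (a - b) v + tv b v
    rw [← tv_add_left, sub_add_cancel]
  rw [h2, map_add, add_apply]
  have h3 : ‖adjoint (tvr (a - b)) (VV α v η)‖ ≤ ε / 2 := by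
    refine ((adjoint (tvr (a - b) : Ell2 Λ →L[ℂ] Ell2 (Λ × Λ))).le_opNorm _).trans ?_
    rw [LinearIsometryEquiv.norm_map]
    have h4 : ‖VV α v η‖ ≤ ‖η‖ := ((VV α v).le_opNorm _).trans
      (mul_le_of_le_one_left (norm_nonneg _) (norm_VV hα v))
    calc _ ≤ (ε / (2 * (‖η‖ + 1))) * (‖η‖ + 1) := by
          have h5 := (norm_tvr_le (Y := Λ) (a - b)).trans hd
          gcongr
          linarith
      _ = ε / 2 := by field_simp
  calc _ ≤ ‖adjoint (tvr (a - b)) (VV α v η)‖ + ‖adjoint (tvr b) (VV α v η)‖ := norm_add_le _ _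
    _ < ε := by linarith

/-- The squared mass of `V v η` on the coordinate `g` of the first leg. -/
theorem VV_esc_mass (hα : Frame α) (g : Γ) (η : Ell2 (Λ × Λ)) :
    Tendsto (fun v => ∑' h : Γ, ‖⟪RR₁ α g (RR₂ α h (dl 1)), VV α v η⟫_ℂ‖ ^ 2) cofinite (𝓝 0) := by
  have h1 := VV_esc hα (JJ (α g) (dl 1)) η
  have h2 := h1.pow 2
  rw [zero_pow two_ne_zero] at h2
  refine h2.congr fun v => ?_
  have h3 := (parseval (regRep_Ja hα)
    (adjoint (tvr (JJ (α g) (dl 1))) (VV α v η))).tsum_eq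
  rw [← h3]
  refine tsum_congr fun h => ?_
  congr 2
  rw [adjoint_inner_right, tvr_apply, Ja_apply]
  have h4 : RR₁ α g (RR₂ α h (dl 1)) = tv (JJ (α g) (dl 1)) (JJ (α h) (dl 1)) := by
    rw [← mul_ap, ← RR_eq, RR_apply]
    change tens (JJ (α g)) (JJ (α h)) (dl ((1 : Λ), (1 : Λ))) = _
    rw [tens_dl]
  rw [h4]

end frame

end Vale.Agent.P092.H541
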